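import Vale.Agent.P155.TC657.Reparam

/-!
# P155, tightness criterion: one loop

`ld`: the distance of loops modulo homeomorphisms of the circle (of either orientation).
`exists_homeo_mem`: a loop with at most `N j` steps of size `ε j` is, up to a homeomorphism of the
circle, in the compact set `modSet`.
-/

namespace Vale.Agent.P155.TC

open Set Filter Topology

section LoopDist

set_option linter.unusedSectionVars false

variable {X Y E : Type*} [TopologicalSpace X] [CompactSpace X] [TopologicalSpace Y]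
  [CompactSpace Y] [PseudoMetricSpace E]

/-- Reparametrisation. -/
def rp (f : C(X, E)) (φ : X ≃ₜ X) : C(X, E) := ⟨fun x => f (φ x), f.continuous.comp φ.continuous⟩

@[simp] theorem rp_apply (f : C(X, E)) (φ : X ≃ₜ X) (x : X) : rp f φ x = f (φ x) := rfl

theorem rp_dist (f g : C(X, E)) (φ : X ≃ₜ X) : dist (rp f φ) (rp g φ) = dist f g := by
  apply le_antisymm
  · refine (ContinuousMap.dist_le dist_nonneg).2 (fun x => ?_)
    exact ContinuousMap.dist_apply_le_dist (f := f) (g := g) (φ x)
  · refine (ContinuousMap.dist_le dist_nonneg).2 (fun x => ?_)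
    have := ContinuousMap.dist_apply_le_dist (f := rp f φ) (g := rp g φ) (φ.symm x)
    rwa [rp_apply, rp_apply, φ.apply_symm_apply] at this

theorem rp_rp (f : C(X, E)) (φ ψ : X ≃ₜ X) : rp (rp f φ) ψ = rp f (ψ.trans φ) := rfl

theorem rp_refl (f : C(X, E)) : rp f (Homeomorph.refl X) = f := rfl

theorem rp_symm (f : C(X, E)) (φ : X ≃ₜ X) : rp (rp f φ) φ.symm = f := by
  ext x; simp

theorem rp_symm' (f : C(X, E)) (φ : X ≃ₜ X) : rp (rp f φ.symm) φ = f := by
  ext x; simp

/-- The distance of unparametrised loops. -/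
noncomputable def ld (f g : C(X, E)) : ℝ := ⨅ φ : X ≃ₜ X, dist f (rp g φ)

theorem ld_bdd (f g : C(X, E)) : BddBelow (range (fun φ : X ≃ₜ X => dist f (rp g φ))) :=
  ⟨0, by rintro _ ⟨φ, rfl⟩; exact dist_nonneg⟩

theorem ld_le (f g : C(X, E)) (φ : X ≃ₜ X) : ld f g ≤ dist f (rp g φ) := ciInf_le (ld_bdd f g) φ

theorem ld_le_dist (f g : C(X, E)) : ld f g ≤ dist f g := ld_le f g (Homeomorph.refl X)

theorem ld_nonneg (f g : C(X, E)) : 0 ≤ ld f g := le_ciInf (fun _ => dist_nonneg)

theorem ld_self (f : C(X, E)) : ld f f = 0 :=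
  le_antisymm ((ld_le_dist f f).trans (dist_self f).le) (ld_nonneg f f)

theorem exists_of_ld_lt {f g : C(X, E)} {r : ℝ} (h : ld f g < r) :
    ∃ φ : X ≃ₜ X, dist f (rp g φ) < r := by
  obtain ⟨φ, hφ⟩ := exists_lt_of_ciInf_lt h
  exact ⟨φ, hφ⟩

theorem ld_comm (f g : C(X, E)) : ld f g = ld g f := by
  have key : ∀ f g : C(X, E), ld f g ≤ ld g f := by
    intro f g
    refine le_ciInf (fun φ => ?_)
    refine (ld_le f g φ.symm).trans (le_of_eq ?_)
    rw [← rp_dist f (rp g φ.symm) φ, rp_symm', dist_comm]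
  exact le_antisymm (key f g) (key g f)

theorem ld_triangle (f g h : C(X, E)) : ld f h ≤ ld f g + ld g h := by
  refine le_of_forall_pos_lt_add (fun r hr => ?_)
  obtain ⟨φ, hφ⟩ := exists_of_ld_lt (lt_add_of_pos_right (ld f g) (half_pos hr))
  obtain ⟨ψ, hψ⟩ := exists_of_ld_lt (lt_add_of_pos_right (ld g h) (half_pos hr))
  calc ld f h ≤ dist f (rp (rp h ψ) φ) := ld_le f h (φ.trans ψ)
    _ ≤ dist f (rp g φ) + dist (rp g φ) (rp (rp h ψ) φ) := dist_triangle _ _ _
    _ = dist f (rp g φ) + dist g (rp h ψ) := by rw [rp_dist]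
    _ < ld f g + ld g h + r := by linarith

theorem ld_rp_left (f g : C(X, E)) (φ : X ≃ₜ X) : ld (rp f φ) g = ld f g := by
  apply le_antisymm
  · have h1 : ld (rp f φ) f = 0 :=
      le_antisymm ((ld_le (rp f φ) f φ).trans (dist_self _).le) (ld_nonneg _ _)
    linarith [ld_triangle (rp f φ) f g]
  · have h1 : ld f (rp f φ) = 0 := by
      rw [ld_comm]
      exact le_antisymm ((ld_le (rp f φ) f φ).trans (dist_self _).le) (ld_nonneg _ _)
    linarith [ld_triangle f (rp f φ) g]

theorem ld_rp_right (f g : C(X, E)) (φ : X ≃ₜ X) : ld f (rp g φ) = ld f g := by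
  rw [ld_comm, ld_rp_left, ld_comm]

/-- Change of the model of the circle. -/
def pull (h : X ≃ₜ Y) (f : C(Y, E)) : C(X, E) := ⟨fun x => f (h x), f.continuous.comp h.continuous⟩

@[simp] theorem pull_apply (h : X ≃ₜ Y) (f : C(Y, E)) (x : X) : pull h f x = f (h x) := rfl

theorem pull_dist (h : X ≃ₜ Y) (f g : C(Y, E)) : dist (pull h f) (pull h g) = dist f g := by
  apply le_antisymm
  · refine (ContinuousMap.dist_le dist_nonneg).2 (fun x => ?_)
    exact ContinuousMap.dist_apply_le_dist (f := f) (g := g) (h x)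
  · refine (ContinuousMap.dist_le dist_nonneg).2 (fun x => ?_)
    have := ContinuousMap.dist_apply_le_dist (f := pull h f) (g := pull h g) (h.symm x)
    rwa [pull_apply, pull_apply, h.apply_symm_apply] at this

theorem pull_ld (h : X ≃ₜ Y) (f g : C(Y, E)) : ld (pull h f) (pull h g) = ld f g := by
  apply le_antisymm
  · refine le_ciInf (fun φ => ?_)
    refine (ld_le _ _ ((h.trans φ).trans h.symm)).trans (le_of_eq ?_)
    rw [← pull_dist h f (rp g φ)]
    congr 1
    ext x
    simp
  · refine le_ciInf (fun φ => ?_)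
    refine (ld_le _ _ ((h.symm.trans φ).trans h)).trans (le_of_eq ?_)
    rw [← pull_dist h f (rp g _)]
    congr 1
    ext x
    simp

/-- The diameter of a loop. -/
noncomputable def dm (f : C(X, E)) : ℝ := Metric.diam (range f)

theorem isBounded_range (f : C(X, E)) : Bornology.IsBounded (range f) :=
  (isCompact_range f.continuous).isBounded

theorem dist_le_dm (f : C(X, E)) (x y : X) : dist (f x) (f y) ≤ dm f :=
  Metric.dist_le_diam_of_mem (isBounded_range f) (mem_range_self x) (mem_range_self y)

theorem dm_nonneg (f : C(X, E)) : 0 ≤ dm f := Metric.diam_nonneg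

theorem dm_le {f : C(X, E)} {r : ℝ} (hr : 0 ≤ r) (h : ∀ x y, dist (f x) (f y) ≤ r) : dm f ≤ r := by
  refine Metric.diam_le_of_forall_dist_le hr ?_
  rintro _ ⟨x, rfl⟩ _ ⟨y, rfl⟩
  exact h x y

theorem dm_rp (f : C(X, E)) (φ : X ≃ₜ X) : dm (rp f φ) = dm f := by
  unfold dm
  congr 1
  ext z
  constructor
  · rintro ⟨x, rfl⟩; exact ⟨φ x, rfl⟩
  · rintro ⟨x, rfl⟩; exact ⟨φ.symm x, by simp⟩

theorem dm_le_add_dist (f g : C(X, E)) : dm f ≤ dm g + 2 * dist f g := by
  refine dm_le (add_nonneg (dm_nonneg g) (mul_nonneg two_pos.le dist_nonneg)) (fun x y => ?_)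
  have h1 := ContinuousMap.dist_apply_le_dist (f := f) (g := g) x
  have h2 := ContinuousMap.dist_apply_le_dist (f := f) (g := g) y
  rw [dist_comm] at h2
  linarith [dist_triangle4 (f x) (g x) (g y) (f y), dist_le_dm g x y]

theorem dm_le_add_ld (f g : C(X, E)) : dm f ≤ dm g + 2 * ld f g := by
  refine le_of_forall_pos_lt_add (fun r hr => ?_)
  obtain ⟨φ, hφ⟩ := exists_of_ld_lt (lt_add_of_pos_right (ld f g) (half_pos hr))
  have := dm_le_add_dist f (rp g φ)
  rw [dm_rp] at this
  linarith

end LoopDist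

section Modulus

variable {X E : Type*} [PseudoMetricSpace X] [CompactSpace X] [PseudoMetricSpace E]

/-- Loops in `K` with a given modulus of continuity. -/
def modSet (X : Type*) [PseudoMetricSpace X] {E : Type*} [PseudoMetricSpace E] (K : Set E)
    (η ε : ℕ → ℝ) : Set C(X, E) :=
  {f | (∀ x, f x ∈ K) ∧ ∀ j, ∀ x y, dist x y < η j → dist (f x) (f y) ≤ ε j}

omit [CompactSpace X] in
theorem isClosed_modSet {K : Set E} (hK : IsClosed K) (η ε : ℕ → ℝ) :
    IsClosed (modSet X K η ε) := by
  have e : modSet X K η ε = (⋂ x, {f : C(X, E) | f x ∈ K}) ∩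
      ⋂ j, ⋂ x, ⋂ y, ⋂ _ : dist x y < η j, {f : C(X, E) | dist (f x) (f y) ≤ ε j} := by
    ext f
    simp [modSet]
  rw [e]
  refine (isClosed_iInter (fun x => hK.preimage (continuous_eval_const x))).inter ?_
  refine isClosed_iInter (fun j => isClosed_iInter (fun x => isClosed_iInter (fun y =>
    isClosed_iInter (fun _ => ?_))))
  exact isClosed_le ((continuous_eval_const x).dist
    (continuous_eval_const y)) continuous_const

theorem isCompact_modSet {K : Set E} (hK : IsCompact K) (hK' : IsClosed K) {η ε : ℕ → ℝ}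
    (hη : ∀ j, 0 < η j) (hε : Tendsto ε atTop (𝓝 0)) : IsCompact (modSet X K η ε) := by
  have e := ContinuousMap.isometryEquivBoundedOfCompact X E
  set A : Set (BoundedContinuousFunction X E) :=
    (ContinuousMap.isometryEquivBoundedOfCompact X E).symm ⁻¹' modSet X K η ε with hA
  have hAcl : IsClosed A := (isClosed_modSet hK' η ε).preimage
    (ContinuousMap.isometryEquivBoundedOfCompact X E).symm.continuous
  have hAc : IsCompact A := by
    refine BoundedContinuousFunction.arzela_ascoli₂ K hK A hAcl (fun f x hf => hf.1 x) ?_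
    refine UniformEquicontinuous.equicontinuous ?_
    rw [Metric.uniformEquicontinuous_iff]
    intro r hr
    obtain ⟨j, hj⟩ := (hε.eventually_lt_const hr).exists
    exact ⟨η j, hη j, fun x y hxy f => (f.2.2 j x y hxy).trans_lt hj⟩
  have : modSet X K η ε = (ContinuousMap.isometryEquivBoundedOfCompact X E).symm '' A := by
    rw [hA, Set.image_preimage_eq _ (ContinuousMap.isometryEquivBoundedOfCompact X E).symm.surjective]
  rw [this]
  exact hAc.image (ContinuousMap.isometryEquivBoundedOfCompact X E).symm.continuous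

end Modulus

section Circ

theorem lift_add_int {F : ℝ → ℝ} (h : ∀ x, F (x + 1) = F x + 1) (x : ℝ) (k : ℤ) :
    F (x + k) = F x + k := by
  induction k using Int.induction_on with
  | zero => simp
  | succ n ih =>
    have := h (x + n)
    push_cast at ih ⊢
    rw [← add_assoc, this, ih, add_assoc]
  | pred n ih =>
    have := h (x + (-(n : ℝ) - 1))
    push_cast at ih ⊢
    rw [show x + (-(n : ℝ) - 1) + 1 = x + -(n : ℝ) by ring, ih] at this
    linarith

theorem lift_periodic {F : ℝ → ℝ} (h : ∀ x, F (x + 1) = F x + 1) :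
    Function.Periodic (fun x => (F x : UnitAddCircle)) 1 := by
  intro x
  simp only [h]
  exact AddCircle.coe_add_period 1 (F x)

/-- The map of the circle induced by a degree one map of the line. -/
noncomputable def circMap (F : ℝ → ℝ) (h : ∀ x, F (x + 1) = F x + 1) :
    UnitAddCircle → UnitAddCircle := (lift_periodic h).lift

theorem circMap_coe {F : ℝ → ℝ} (h : ∀ x, F (x + 1) = F x + 1) (x : ℝ) :
    circMap F h (x : UnitAddCircle) = (F x : UnitAddCircle) := rfl

theorem circMap_cont {F : ℝ → ℝ} (h : ∀ x, F (x + 1) = F x + 1) (hc : Continuous F) :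
    Continuous (circMap F h) := by
  refine continuous_quot_lift _ ?_
  exact (AddCircle.continuous_mk' 1).comp hc

/-- The homeomorphism of the circle induced by a degree one homeomorphism of the line. -/
noncomputable def circHomeo (F : ℝ ≃ₜ ℝ) (h : ∀ x, F (x + 1) = F x + 1) :
    UnitAddCircle ≃ₜ UnitAddCircle where
  toFun := circMap F h
  invFun := circMap F.symm (fun x => by
    rw [Homeomorph.symm_apply_eq, h, F.apply_symm_apply])
  left_inv := by
    intro x
    induction x using QuotientAddGroup.induction_on with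
    | H x =>
      rw [circMap_coe, circMap_coe, F.symm_apply_apply]
  right_inv := by
    intro x
    induction x using QuotientAddGroup.induction_on with
    | H x =>
      rw [circMap_coe, circMap_coe, F.apply_symm_apply]
  continuous_toFun := circMap_cont _ F.continuous
  continuous_invFun := circMap_cont _ F.symm.continuous

theorem circHomeo_coe (F : ℝ ≃ₜ ℝ) (h : ∀ x, F (x + 1) = F x + 1) (x : ℝ) :
    circHomeo F h (x : UnitAddCircle) = (F x : UnitAddCircle) := rfl

/-- Two points of the circle have lifts at the same distance. -/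
theorem exists_lifts (x y : UnitAddCircle) :
    ∃ u v : ℝ, (u : UnitAddCircle) = x ∧ (v : UnitAddCircle) = y ∧ |u - v| = dist x y := by
  induction x using QuotientAddGroup.induction_on with
  | H x =>
    induction y using QuotientAddGroup.induction_on with
    | H y =>
      refine ⟨x, y + round (x - y), rfl, ?_, ?_⟩
      · have : ((round (x - y) : ℝ) : UnitAddCircle) = 0 := by
          rw [AddCircle.coe_eq_zero_iff]
          exact ⟨round (x - y), by simp⟩
        rw [AddCircle.coe_add, this, add_zero]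
      · rw [dist_eq_norm]
        have := UnitAddCircle.norm_eq (x := x - y)
        rw [show x - (y + (round (x - y) : ℝ)) = x - y - round (x - y) by ring, ← this]
        rfl

variable {E : Type*} [PseudoMetricSpace E]

/-- The periodic function of a loop. -/
def lft (f : C(UnitAddCircle, E)) (x : ℝ) : E := f (x : UnitAddCircle)

theorem lft_cont (f : C(UnitAddCircle, E)) : Continuous (lft f) :=
  f.continuous.comp (AddCircle.continuous_mk' 1)

theorem lft_periodic (f : C(UnitAddCircle, E)) : Function.Periodic (lft f) 1 := by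
  intro x
  unfold lft
  rw [AddCircle.coe_add_period]

/-- **One loop.** -/
theorem exists_homeo_mem {f : C(UnitAddCircle, E)} {K : Set E} (hK : ∀ x, f x ∈ K) {ε : ℕ → ℝ}
    (hε : ∀ j, 0 ≤ ε j) {N : ℕ → ℕ} (hN : ∀ j m, Steps (lft f) (ε j) m → m ≤ N j) :
    ∃ φ : UnitAddCircle ≃ₜ UnitAddCircle,
      rp f φ ∈ modSet UnitAddCircle K (fun j => wt j / (N j + 1)) (fun j => 6 * ε j) := by
  obtain ⟨F, hF, hF1, hF2⟩ := exists_reparam (lft_cont f) (lft_periodic f) hε hN
  refine ⟨circHomeo F hF1, fun x => hK _, fun j x y hxy => ?_⟩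
  obtain ⟨u, v, rfl, rfl, huv⟩ := exists_lifts x y
  rw [rp_apply, rp_apply, circHomeo_coe, circHomeo_coe]
  exact hF2 j u v (by rw [huv]; exact hxy)

end Circ

end Vale.Agent.P155.TC
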