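import Vale.Agent.P155.TC657.OneLoop

/-!
# P155, literal Q1: maps of the circle

`mono_or_tw`: a nonconstant continuous map of the circle is either weakly monotone of degree `±1`,
or there are two disjoint arcs of the source which both cross the same arc of the target.
`circle_dichotomy`: if the trace of the loop `γ` is contained in the trace of the simple loop `J`,
then either `γ = J` as unparametrised loops or `γ` covers some arc of `J` twice.
-/

namespace Vale.Agent.P155.TC

open Set Filter Topology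

section Cross

/-- `g` crosses `[p, q]` during `[a, b]`, upwards or downwards. -/
def Cr (g : ℝ → ℝ) (a b p q : ℝ) : Prop :=
  ((g a = p ∧ g b = q) ∨ (g a = q ∧ g b = p)) ∧ ∀ t ∈ Icc a b, g t ∈ Icc p q

/-- Two disjoint crossings (modulo one) of the same interval (modulo one). -/
def Tw (g : ℝ → ℝ) : Prop :=
  ∃ p q a b a' b' : ℝ, ∃ m m' : ℤ, p < q ∧ q < p + 1 ∧ a < b ∧ b < a' ∧ a' < b' ∧ b' < a + 1 ∧
    Cr g a b (p + m) (q + m) ∧ Cr g a' b' (p + m') (q + m')

variable {g : ℝ → ℝ}

theorem up_cross (hg : Continuous g) {u v p q : ℝ} (huv : u ≤ v) (hpq : p < q) (hu : g u ≤ p)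
    (hv : q ≤ g v) : ∃ a b, u ≤ a ∧ a < b ∧ b ≤ v ∧ g a = p ∧ g b = q ∧
      ∀ t ∈ Icc a b, g t ∈ Icc p q := by
  -- the first time `b` above `q`
  set B := Icc u v ∩ {t | q ≤ g t} with hB
  have hBcl : IsClosed B := isClosed_Icc.inter (isClosed_le continuous_const hg)
  have hBne : B.Nonempty := ⟨v, ⟨huv, le_rfl⟩, hv⟩
  have hBbd : BddBelow B := ⟨u, fun t ht => ht.1.1⟩
  set b := sInf B with hb
  have hbB : b ∈ B := hBcl.csInf_mem hBne hBbd
  have hbef : ∀ t, u ≤ t → t < b → g t < q := by
    intro t h1 h2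
    by_contra h3
    exact absurd (csInf_le hBbd ⟨⟨h1, h2.le.trans hbB.1.2⟩, not_lt.1 h3⟩) (not_le.2 h2)
  have hub : u < b := lt_of_le_of_ne hbB.1.1 (by
    intro h
    have := hbB.2
    simp only [Set.mem_ofPred_eq] at this
    rw [← h] at this
    linarith)
  have hgb : g b = q := by
    apply le_antisymm _ hbB.2
    have hcl : IsClosed {t | g t ≤ q} := isClosed_le hg continuous_const
    have : closure (Ico u b) ⊆ {t | g t ≤ q} :=
      hcl.closure_subset_iff.2 (fun t ht => (hbef t ht.1 ht.2).le)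
    rw [closure_Ico hub.ne] at this
    exact this ⟨hub.le, le_rfl⟩
  -- the last time `a` below `p` before `b`
  set A := Icc u b ∩ {t | g t ≤ p} with hA
  have hAcl : IsClosed A := isClosed_Icc.inter (isClosed_le hg continuous_const)
  have hAne : A.Nonempty := ⟨u, ⟨le_rfl, hub.le⟩, hu⟩
  have hAbd : BddAbove A := ⟨b, fun t ht => ht.1.2⟩
  set a := sSup A with ha
  have haA : a ∈ A := hAcl.csSup_mem hAne hAbd
  have haft : ∀ t, a < t → t ≤ b → p < g t := by
    intro t h1 h2
    by_contra h3
    exact absurd (le_csSup hAbd ⟨⟨haA.1.1.trans h1.le, h2⟩, not_lt.1 h3⟩) (not_le.2 h1)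
  have hab : a < b := lt_of_le_of_ne haA.1.2 (by
    intro h
    have := haA.2
    simp only [Set.mem_ofPred_eq] at this
    rw [h, hgb] at this
    linarith)
  have hga : g a = p := by
    apply le_antisymm haA.2
    have hcl : IsClosed {t | p ≤ g t} := isClosed_le continuous_const hg
    have : closure (Ioc a b) ⊆ {t | p ≤ g t} :=
      hcl.closure_subset_iff.2 (fun t ht => (haft t ht.1 ht.2).le)
    rw [closure_Ioc hab.ne] at this
    exact this ⟨le_rfl, hab.le⟩
  refine ⟨a, b, haA.1.1, hab, hbB.1.2, hga, hgb, fun t ht => ⟨?_, ?_⟩⟩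
  · rcases ht.1.eq_or_lt with h | h
    · rw [← h, hga]
    · exact (haft t h ht.2).le
  · rcases ht.2.eq_or_lt with h | h
    · rw [h, hgb]
    · exact (hbef t (haA.1.1.trans ht.1) h).le

theorem down_cross (hg : Continuous g) {u v p q : ℝ} (huv : u ≤ v) (hpq : p < q) (hu : q ≤ g u)
    (hv : g v ≤ p) : ∃ a b, u ≤ a ∧ a < b ∧ b ≤ v ∧ g a = q ∧ g b = p ∧
      ∀ t ∈ Icc a b, g t ∈ Icc p q := by
  obtain ⟨a, b, h1, h2, h3, h4, h5, h6⟩ := up_cross (g := fun t => -g t) hg.neg huv
    (show -q < -p by linarith) (by linarith) (by linarith)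
  refine ⟨a, b, h1, h2, h3, by linarith, by linarith, fun t ht => ?_⟩
  have := h6 t ht
  simp only [mem_Icc] at this ⊢
  constructor <;> linarith [this.1, this.2]

theorem tw_of_fold (hg : Continuous g) {s t : ℝ} (h1 : s < t) (h2 : t < s + 1) (h3 : g t < g s)
    (h4 : g t < g (s + 1)) : Tw g := by
  set μ := min (g s) (g (s + 1)) with hμ
  have hμt : g t < μ := lt_min h3 h4
  set δ := min (μ - g t) 1 with hδ
  have hδ0 : 0 < δ := lt_min (by linarith) one_pos
  have hδ1 : δ ≤ 1 := min_le_right _ _
  have hδ2 : δ ≤ μ - g t := min_le_left _ _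
  have hs : μ ≤ g s := min_le_left _ _
  have hs' : μ ≤ g (s + 1) := min_le_right _ _
  set p := g t + δ / 3 with hp
  set q := g t + 2 * δ / 3 with hq
  obtain ⟨a, b, a1, a2, a3, a4, a5, a6⟩ := down_cross (p := p) (q := q) hg h1.le
    (by rw [hp, hq]; linarith) (by rw [hq]; linarith) (by rw [hp]; linarith)
  obtain ⟨a', b', b1, b2, b3, b4, b5, b6⟩ := up_cross (p := p) (q := q) hg h2.le
    (by rw [hp, hq]; linarith) (by rw [hp]; linarith) (by rw [hq]; linarith)
  have hbt : b < t := lt_of_le_of_ne a3 (by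
    intro h
    rw [h] at a5
    rw [hp] at a5
    linarith)
  have hb's : b' < s + 1 := lt_of_le_of_ne b3 (by
    intro h
    rw [h] at b5
    rw [hq] at b5
    linarith)
  refine ⟨p, q, a, b, a', b', 0, 0, by rw [hp, hq]; linarith, by rw [hp, hq]; linarith, a2,
    hbt.trans_le b1, b2, by linarith, ⟨Or.inr ⟨?_, ?_⟩, ?_⟩, ⟨Or.inl ⟨?_, ?_⟩, ?_⟩⟩
  · simpa using a4
  · simpa using a5
  · simpa using a6
  · simpa using b4
  · simpa using b5
  · simpa using b6

theorem tw_neg (h : Tw (fun t => -g t)) : Tw g := by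
  obtain ⟨p, q, a, b, a', b', m, m', h1, h2, h3, h4, h5, h6, h7, h8⟩ := h
  have key : ∀ {a b : ℝ} {m : ℤ}, Cr (fun t => -g t) a b (p + m) (q + m) →
      Cr g a b (-q + (-m : ℤ)) (-p + (-m : ℤ)) := by
    rintro a b m ⟨h7, h8⟩
    refine ⟨?_, fun t ht => ?_⟩
    · push_cast
      rcases h7 with ⟨h7, h7'⟩ | ⟨h7, h7'⟩
      · right; constructor <;> linarith
      · left; constructor <;> linarith
    · have := h8 t ht
      push_cast
      simp only [mem_Icc] at this ⊢
      constructor <;> linarith [this.1, this.2]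
  exact ⟨-q, -p, a, b, a', b', -m, -m', by linarith, by linarith, h3, h4, h5, h6, key h7, key h8⟩

theorem add_nat_of_deg {d : ℤ} (hd : ∀ t, g (t + 1) = g t + d) (t : ℝ) (k : ℕ) :
    g (t + k) = g t + k * d := by
  induction k with
  | zero => simp
  | succ k ih =>
    push_cast
    rw [← add_assoc, hd, ih]
    ring

theorem mono_or_tw_nonneg (hg : Continuous g) {d : ℤ} (hd : ∀ t, g (t + 1) = g t + d)
    (hd0 : 0 ≤ d) (hnc : ∃ s t, g s ≠ g t) : (Monotone g ∧ d = 1) ∨ Tw g := by
  by_cases hm : Monotone g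
  · rcases hd0.eq_or_lt with h0 | h0
    · exfalso
      obtain ⟨s, t, hst⟩ := hnc
      have key : ∀ s t, g s ≤ g t := by
        intro s t
        obtain ⟨k, hk⟩ := exists_nat_ge (s - t)
        have := hm (show s ≤ t + k by linarith)
        rw [add_nat_of_deg hd, ← h0] at this
        simpa using this
      exact hst (le_antisymm (key s t) (key t s))
    · rcases (show 1 ≤ d from h0).eq_or_lt with h1 | h1
      · exact Or.inl ⟨hm, h1.symm⟩
      · right
        have h2 : (2 : ℤ) ≤ d := h1
        have h2' : (2 : ℝ) ≤ d := by exact_mod_cast h2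
        have h01 : g 1 = g 0 + d := by simpa using hd 0
        obtain ⟨a, b, a1, a2, a3, a4, a5, a6⟩ := up_cross (p := g 0 + 1 / 4) (q := g 0 + 1 / 2) hg
          (zero_le_one : (0 : ℝ) ≤ 1) (by linarith) (by linarith) (by linarith)
        obtain ⟨a', b', b1, b2, b3, b4, b5, b6⟩ := up_cross (p := g 0 + 1 / 4 + 1)
          (q := g 0 + 1 / 2 + 1) hg a3 (by linarith) (by linarith) (by linarith)
        have hba : b < a' := lt_of_le_of_ne b1 (by
          intro h
          rw [h] at a5
          linarith)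
        have ha0 : 0 < a := lt_of_le_of_ne a1 (by
          intro h
          rw [← h] at a4
          linarith)
        refine ⟨g 0 + 1 / 4, g 0 + 1 / 2, a, b, a', b', 0, 1, by linarith, by linarith, a2, hba,
          b2, by linarith, ⟨Or.inl ⟨?_, ?_⟩, ?_⟩, ⟨Or.inl ⟨?_, ?_⟩, ?_⟩⟩
        · simpa using a4
        · simpa using a5
        · simpa using a6
        · simpa using b4
        · simpa using b5
        · simpa using b6
  · right
    unfold Monotone at hm
    push Not at hm
    obtain ⟨s, t, hst, hlt⟩ := hm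
    have hst' : s < t := lt_of_le_of_ne hst (by rintro rfl; exact lt_irrefl _ hlt)
    set k := ⌊t - s⌋₊ with hk
    have hk1 : (k : ℝ) ≤ t - s := Nat.floor_le (by linarith)
    have hk2 : t - s < k + 1 := Nat.lt_floor_add_one _
    have e : g t = g (t - k) + k * d := by
      rw [← add_nat_of_deg hd]
      ring_nf
    have hkd : (0 : ℝ) ≤ k * d := mul_nonneg (Nat.cast_nonneg _) (by exact_mod_cast hd0)
    have hlt' : g (t - k) < g s := by linarith
    have hne : s ≠ t - k := by
      intro h
      rw [← h] at hlt'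
      exact lt_irrefl _ hlt'
    refine tw_of_fold hg (lt_of_le_of_ne (by linarith) hne) (by linarith) hlt' ?_
    rw [hd]
    have : (0 : ℝ) ≤ d := by exact_mod_cast hd0
    linarith

/-- **(Q-c)** -/
theorem mono_or_tw (hg : Continuous g) {d : ℤ} (hd : ∀ t, g (t + 1) = g t + d)
    (hnc : ∃ s t, g s ≠ g t) : (Monotone g ∧ d = 1) ∨ (Antitone g ∧ d = -1) ∨ Tw g := by
  rcases le_or_gt 0 d with h | h
  · rcases mono_or_tw_nonneg hg hd h hnc with h | h
    · exact Or.inl h
    · exact Or.inr (Or.inr h)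
  · have hd' : ∀ t, (fun t => -g t) (t + 1) = (fun t => -g t) t + (-d : ℤ) := by
      intro t
      simp only [hd]
      push_cast
      ring
    rcases mono_or_tw_nonneg (g := fun t => -g t) hg.neg hd' (by omega)
      (by obtain ⟨s, t, hst⟩ := hnc; exact ⟨s, t, fun h => hst (neg_injective h)⟩) with h1 | h1
    · refine Or.inr (Or.inl ⟨fun s t hst => ?_, by omega⟩)
      have := h1.1 hst
      simpa using this
    · exact Or.inr (Or.inr (tw_neg h1))

end Cross

section Homeo

/-- A strictly increasing continuous degree one map of the line is a homeomorphism. -/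
theorem exists_homeo_of_strictMono {w : ℝ → ℝ} (hw : Continuous w) (hm : StrictMono w)
    (h1 : ∀ t, w (t + 1) = w t + 1) : ∃ W : ℝ ≃ₜ ℝ, ∀ t, W t = w t := by
  have hn : ∀ (t : ℝ) (k : ℤ), w (t + k) = w t + k := fun t k => lift_add_int h1 t k
  have hsurj : Function.Surjective w := by
    intro y
    set k := ⌊y - w 0⌋ with hk
    have h2 := Int.floor_le (y - w 0)
    have h3 := Int.lt_floor_add_one (y - w 0)
    have e1 := hn 0 k
    have e2 := hn 0 (k + 1)
    rw [zero_add] at e1 e2
    push_cast at e2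
    obtain ⟨x, _, hx⟩ := intermediate_value_Icc (show (k : ℝ) ≤ k + 1 by linarith)
      hw.continuousOn (show y ∈ Icc (w k) (w (k + 1)) from ⟨by rw [e1]; linarith, by
        rw [e2]; linarith⟩)
    exact ⟨x, hx⟩
  exact ⟨(StrictMono.orderIsoOfSurjective w hm hsurj).toHomeomorph, fun t => rfl⟩

variable {E : Type*} [PseudoMetricSpace E]

/-- A monotone degree one reparametrisation does not change the unparametrised loop. -/
theorem ld_eq_zero_of_mono {γ J : C(UnitAddCircle, E)} {g : ℝ → ℝ} (hg : Continuous g)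
    (hm : Monotone g) (h1 : ∀ t, g (t + 1) = g t + 1)
    (h : ∀ t : ℝ, γ (t : UnitAddCircle) = J (g t : UnitAddCircle)) : ld γ J = 0 := by
  apply le_antisymm _ (ld_nonneg _ _)
  refine le_of_forall_pos_le_add (fun r hr => ?_)
  rw [zero_add]
  -- bound for `g t - t`
  obtain ⟨C, hC⟩ : ∃ C : ℝ, ∀ t, |g t - t| ≤ C := by
    obtain ⟨C, hC⟩ := (isCompact_Icc (a := (0 : ℝ)) (b := 1)).exists_bound_of_continuousOn
      (f := fun t => g t - t) (hg.sub continuous_id).continuousOn
    refine ⟨C, fun t => ?_⟩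
    have h2 := hC (Int.fract t) ⟨Int.fract_nonneg _, (Int.fract_lt_one _).le⟩
    have h3 : g t - t = g (Int.fract t) - Int.fract t := by
      have := lift_add_int h1 (Int.fract t) ⌊t⌋
      rw [Int.fract_add_floor] at this
      rw [this]
      have := Int.fract_add_floor t
      linarith
    rw [h3]
    exact h2
  have hC0 : 0 ≤ C := (abs_nonneg _).trans (hC 0)
  -- uniform continuity of `J`
  obtain ⟨δ, hδ, hJ⟩ := Metric.uniformContinuous_iff.1
    (CompactSpace.uniformContinuous_of_continuous J.continuous) r hr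
  set ε := min (1 / 2) (δ / (2 * (C + 1))) with hε
  have hε0 : 0 < ε := lt_min (by norm_num) (by positivity)
  have hε1 : ε ≤ 1 / 2 := min_le_left _ _
  have hεC : ε * C < δ := by
    have h2 : ε ≤ δ / (2 * (C + 1)) := min_le_right _ _
    calc ε * C ≤ δ / (2 * (C + 1)) * C := by gcongr
      _ = δ * (C / (2 * (C + 1))) := by ring
      _ < δ * 1 := by
          apply mul_lt_mul_of_pos_left _ hδ
          rw [div_lt_one (by positivity)]
          linarith
      _ = δ := mul_one _
  set w : ℝ → ℝ := fun t => (1 - ε) * g t + ε * t with hw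
  have hwc : Continuous w := (continuous_const.mul hg).add (continuous_const.mul continuous_id)
  have hwm : StrictMono w := by
    intro s t hst
    have h2 := hm hst.le
    have h3 : (1 - ε) * g s ≤ (1 - ε) * g t := mul_le_mul_of_nonneg_left h2 (by linarith)
    have h4 : ε * s < ε * t := mul_lt_mul_of_pos_left hst hε0
    simp only [hw]
    linarith
  have hw1 : ∀ t, w (t + 1) = w t + 1 := by
    intro t
    simp only [hw, h1]
    ring
  obtain ⟨W, hW⟩ := exists_homeo_of_strictMono hwc hwm hw1
  have hW1 : ∀ t, W (t + 1) = W t + 1 := fun t => by rw [hW, hW, hw1]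
  refine (ld_le γ J (circHomeo W hW1)).trans ?_
  refine (ContinuousMap.dist_le hr.le).2 (fun x => ?_)
  induction x using QuotientAddGroup.induction_on with
  | H t =>
    rw [rp_apply, circHomeo_coe]
    have e : γ (t : UnitAddCircle) = J (g t : UnitAddCircle) := h t
    have e2 : γ (QuotientAddGroup.mk t) = J (g t : UnitAddCircle) := e
    rw [e2]
    refine (hJ ?_).le
    have h3 : dist (g t : UnitAddCircle) (W t : UnitAddCircle) ≤ |g t - W t| := by
      rw [dist_eq_norm, ← AddCircle.coe_sub, UnitAddCircle.norm_eq]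
      exact (round_le (g t - W t) 0).trans (by simp)
    refine h3.trans_lt ?_
    rw [hW]
    have h4 : g t - w t = ε * (g t - t) := by simp only [hw]; ring
    rw [h4, abs_mul, abs_of_pos hε0]
    exact (mul_le_mul_of_nonneg_left (hC t) hε0.le).trans_lt hεC

end Homeo

end Vale.Agent.P155.TC
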