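import Vale.Agent.P155.TC657.CPT
import Vale.Agent.P155.TC657.CircMap

/-!
# P155, literal Q1: CPT and CPT'
-/

namespace Vale.Agent.P155.TC

open Set Filter Topology Function Vale.Agent.P155

theorem ldist_eq (γ γ' : Q1.PL) : Q1.ldist γ γ' = ld γ.c γ'.c := rfl

/-- **CPT'** -/
theorem cpt' : Q1.CPT' := by
  intro Ω S n ω G hG v γ θ hv hC
  have hlen : ∀ j, 0 < (comp (ω j) (v j)).ncard := fun j => by
    rw [ncard_comp (hG.mem j) (hv j)]
    exact len_pos (hG.mem j) (hv j)
  rw [Metric.tendsto_atTop]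
  intro ε hε
  obtain ⟨J, hJ⟩ := eventually_atTop.1 (hC.close (ε / 2) (half_pos hε))
  refine ⟨J, fun j hj => ?_⟩
  rw [Real.dist_eq, sub_zero, abs_of_nonneg dist_nonneg, Q1.dist_def, ldist_eq]
  set m := (comp (ω j) (v j)).ncard with hm
  have hm0 : (0 : ℝ) < m := by exact_mod_cast hlen j
  -- the homeomorphism
  set w : ℝ → ℝ := fun x => θ j (m * x) with hw
  have hwc : Continuous w := (hC.cont j).comp (continuous_const.mul continuous_id)
  have hwm : StrictMono w := fun x y hxy => hC.mono j (mul_lt_mul_of_pos_left hxy hm0)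
  have hw1 : ∀ t, w (t + 1) = w t + 1 := by
    intro t
    simp only [hw]
    rw [mul_add, mul_one]
    exact hC.per j _
  obtain ⟨W, hW⟩ := exists_homeo_of_strictMono hwc hwm hw1
  have hW1 : ∀ t, W (t + 1) = W t + 1 := fun t => by rw [hW, hW, hw1]
  refine lt_of_le_of_lt (ld_le _ _ (circHomeo W hW1)) (lt_of_le_of_lt ?_ (half_lt_self hε))
  refine (ContinuousMap.dist_le (half_pos hε).le).2 (fun x => ?_)
  induction x using QuotientAddGroup.induction_on with
  | H t =>
    have h1 := hJ j hj (m * t)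
    rw [rp_apply, circHomeo_coe, hW]
    exact h1

/-- **CPT** -/
theorem cpt (hCNT : Q1.CNT) : Q1.CPT := by
  intro Ω S n ω G hG v hv hdeep
  -- positivity of the lengths
  have hlen : ∀ j, 0 < (comp (ω j) (v j)).ncard := fun j => by
    rw [ncard_comp (hG.mem j) (hv j)]
    exact len_pos (hG.mem j) (hv j)
  set f : ℕ → C(UnitAddCircle, ℂ) := fun j =>
    (Q1.lcurve (S.δ (n j)) (S.a (n j)) (ω j) (v j)).c with hf
  have hflft : ∀ j (s : ℝ), lft (f j) s = Q1.poly (Q1.cyc (S.δ (n j)) (S.a (n j)) (ω j) (v j))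
      ((comp (ω j) (v j)).ncard * s) := fun j s => rfl
  have hδ0 : Tendsto (fun j => S.δ (n j)) atTop (𝓝 0) := S.mesh.comp hG.lim
  -- bounded range
  obtain ⟨R, hR⟩ : ∃ R : ℕ, ∀ j, ∀ x, f j x ∈ Metric.closedBall (0 : ℂ) R := by
    refine exists_bound (P := fun j R => ∀ x, f j x ∈ Metric.closedBall (0 : ℂ) R) ?_ ?_ ?_
    · intro j R R' h h1 x
      exact Metric.closedBall_subset_closedBall (by exact_mod_cast h) (h1 x)
    · intro j
      obtain ⟨r, hr⟩ := (isBounded_range (f j)).subset_closedBall 0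
      obtain ⟨R, hR⟩ := exists_nat_ge r
      exact ⟨R, fun x => Metric.closedBall_subset_closedBall hR (hr (mem_range_self x))⟩
    · obtain ⟨r, hr, -, hev⟩ := K1.region_eventually hG.bdd S
      obtain ⟨R, hR⟩ := exists_nat_ge (r + 1)
      refine ⟨R, ?_⟩
      filter_upwards [hG.lim.eventually hev, hδ0.eventually_lt_const one_pos] with j h1 h2 x
      induction x using QuotientAddGroup.induction_on with
      | H t =>
        have e : f j (t : UnitAddCircle) = Q1.poly (Q1.cyc (S.δ (n j)) (S.a (n j)) (ω j) (v j))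
          ((comp (ω j) (v j)).ncard * t) := hflft j t
        have e' : f j (QuotientAddGroup.mk t) = Q1.poly (Q1.cyc (S.δ (n j)) (S.a (n j)) (ω j) (v j))
          ((comp (ω j) (v j)).ncard * t) := e
        rw [e']
        set s := ((comp (ω j) (v j)).ncard : ℝ) * t with hs
        have h3 := poly_floor (dist_cyc (a := S.a (n j)) (hG.mem j) (hv j) (S.pos (n j)).le) s
        have h4 : Q1.cyc (S.δ (n j)) (S.a (n j)) (ω j) (v j) ⌊s⌋ ∈ Metric.closedBall (0 : ℂ) r := by
          rw [cyc_eq]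
          exact h1 (pt_mem_region (mem_of_ne (hG.mem j) (yv_ne (hG.mem j) (hv j) _)) _ _)
        rw [Metric.mem_closedBall] at h4 ⊢
        have h5 := dist_triangle (Q1.poly (Q1.cyc (S.δ (n j)) (S.a (n j)) (ω j) (v j)) s)
          (Q1.cyc (S.δ (n j)) (S.a (n j)) (ω j) (v j) ⌊s⌋) 0
        linarith
  -- steps
  set ε : ℕ → ℝ := fun k => (1 / 2) ^ k with hε
  have hε0 : ∀ k, 0 < ε k := fun k => by positivity
  have hN : ∀ k, ∃ N : ℕ, ∀ j, ∀ m, Steps (lft (f j)) (ε k) m → m ≤ N := by
    intro k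
    refine exists_bound (P := fun j N => ∀ m, Steps (lft (f j)) (ε k) m → m ≤ N) ?_ ?_ ?_
    · intro j R R' h h1 m hm
      exact (h1 m hm).trans h
    · intro j
      exact steps_bdd (lft_cont (f j)) (hε0 k)
    · obtain ⟨M, hM⟩ := hCNT Ω S n ω G hG v hdeep (ε k / 2) (half_pos (hε0 k))
      refine ⟨M, ?_⟩
      filter_upwards [hM, hδ0.eventually_lt_const (show 0 < ε k / 4 by linarith [hε0 k])]
        with j h1 h2 m hm
      exact steps_le_of_cnt (hG.mem j) (hv j) (S.pos (n j)) (by linarith) h1 m hm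
  choose N hN using hN
  -- reparametrisation
  have hF := fun j => exists_reparam (lft_cont (f j)) (lft_periodic (f j))
    (fun k => (hε0 k).le) (fun k => hN k j)
  choose F hFm hF1 hFd using hF
  set K := Metric.closedBall (0 : ℂ) R with hK
  set η : ℕ → ℝ := fun k => wt k / (N k + 1) with hη
  have hη0 : ∀ k, 0 < η k := fun k => div_pos (wt_pos k) (by positivity)
  have hmem : ∀ j, rp (f j) (circHomeo (F j) (hF1 j)) ∈
      modSet UnitAddCircle K η (fun k => 6 * ε k) := by
    intro j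
    refine ⟨fun x => hR j _, fun k x y hxy => ?_⟩
    obtain ⟨s, t, rfl, rfl, hst⟩ := exists_lifts x y
    rw [rp_apply, rp_apply, circHomeo_coe, circHomeo_coe]
    exact hFd j k s t (by rw [hst]; exact hxy)
  have hεlim : Tendsto (fun k => 6 * ε k) atTop (𝓝 0) := by
    have := (tendsto_pow_atTop_nhds_zero_of_lt_one (by norm_num : (0 : ℝ) ≤ 1 / 2)
      (by norm_num : (1 / 2 : ℝ) < 1)).const_mul 6
    rw [mul_zero] at this
    exact this
  have hcomp : IsCompact (modSet UnitAddCircle K η (fun k => 6 * ε k)) :=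
    isCompact_modSet (isCompact_closedBall _ _) Metric.isClosed_closedBall hη0 hεlim
  obtain ⟨g, -, φ, hφ, hlim⟩ := hcomp.tendsto_subseq hmem
  refine ⟨φ, hφ, ⟨g⟩, fun j t => (F (φ j)).symm (t / (comp (ω (φ j)) (v (φ j))).ncard), ?_, ?_,
    ?_, ?_⟩
  · intro j
    exact (F (φ j)).symm.continuous.comp (continuous_id.div_const _)
  · intro j s t hst
    have hpos : (0 : ℝ) < (comp (ω (φ j)) (v (φ j))).ncard := by exact_mod_cast hlen (φ j)
    have h1 : s / (comp (ω (φ j)) (v (φ j))).ncard < t / (comp (ω (φ j)) (v (φ j))).ncard :=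
      div_lt_div_of_pos_right hst hpos
    by_contra hc
    push Not at hc
    have h2 := (hFm (φ j)).monotone hc
    rw [Homeomorph.apply_symm_apply, Homeomorph.apply_symm_apply] at h2
    linarith
  · intro j t
    have hpos : (0 : ℝ) < (comp (ω (φ j)) (v (φ j))).ncard := by exact_mod_cast hlen (φ j)
    show (F (φ j)).symm ((t + (comp (ω (φ j)) (v (φ j))).ncard) / _) = _
    rw [add_div, div_self hpos.ne', Homeomorph.symm_apply_eq, hF1, Homeomorph.apply_symm_apply]
  · intro r hr
    have h1 := Metric.tendsto_nhds.1 hlim r hr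
    filter_upwards [h1] with j hj t
    have hpos : (0 : ℝ) < (comp (ω (φ j)) (v (φ j))).ncard := by exact_mod_cast hlen (φ j)
    set x := (F (φ j)).symm (t / (comp (ω (φ j)) (v (φ j))).ncard) with hx
    have h2 := (ContinuousMap.dist_apply_le_dist (f := rp (f (φ j))
      (circHomeo (F (φ j)) (hF1 (φ j)))) (g := g) (x : UnitAddCircle)).trans hj.le
    rw [rp_apply, circHomeo_coe] at h2
    have e : F (φ j) x = t / (comp (ω (φ j)) (v (φ j))).ncard := by
      rw [hx, Homeomorph.apply_symm_apply]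
    have e2 : f (φ j) ((F (φ j) x : ℝ) : UnitAddCircle) =
        Q1.poly (Q1.cyc (S.δ (n (φ j))) (S.a (n (φ j))) (ω (φ j)) (v (φ j))) t := by
      have h3 := hflft (φ j) (F (φ j) x)
      unfold lft at h3
      rw [h3, e, mul_div_cancel₀ _ hpos.ne']
    rw [e2] at h2
    exact h2

end Vale.Agent.P155.TC
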