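import Vale.Agent.P155.H878.Q1Stmt

/-!
# P155, literal Q1: the loop through a vertex as an orbit of the successor map
-/

namespace Vale.Agent.P155.TC

open Set Filter Topology Function Vale.Agent.P155 Vale.Agent.P155.SW

variable {V : Finset Pt} {ω : Conf}

theorem pm1 (hω : ω ∈ DD V) : IsPM V ω.1 := mem_PM.1 (Finset.mem_product.1 hω).1

theorem pm2 (hω : ω ∈ DD V) : IsPM V ω.2 := mem_PM.1 (Finset.mem_product.1 hω).2

theorem mem_of_ne (hω : ω ∈ DD V) {v : Pt} (h : ω.1 v ≠ ω.2 v) : v ∈ V := by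
  by_contra hc
  exact h (by rw [(pm1 hω).off v hc, (pm2 hω).off v hc])

theorem ne_fst (hω : ω ∈ DD V) {v : Pt} (h : ω.1 v ≠ ω.2 v) : ω.1 (ω.1 v) ≠ ω.2 (ω.1 v) := by
  intro hc
  rw [(pm1 hω).invol] at hc
  apply h
  have := congrArg ω.2 hc
  rw [(pm2 hω).invol] at this
  exact this.symm

theorem ne_snd (hω : ω ∈ DD V) {v : Pt} (h : ω.1 v ≠ ω.2 v) : ω.1 (ω.2 v) ≠ ω.2 (ω.2 v) := by
  intro hc
  rw [(pm2 hω).invol] at hc
  apply h
  have := congrArg ω.1 hc
  rw [(pm1 hω).invol] at this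
  exact this.symm

theorem ne_suc (hω : ω ∈ DD V) {v : Pt} (h : ω.1 v ≠ ω.2 v) :
    ω.1 (SW.suc ω v) ≠ ω.2 (SW.suc ω v) := by
  unfold SW.suc
  split_ifs
  exacts [ne_fst hω h, ne_snd hω h]

theorem ne_pre (hω : ω ∈ DD V) {v : Pt} (h : ω.1 v ≠ ω.2 v) :
    ω.1 (SW.pre ω v) ≠ ω.2 (SW.pre ω v) := by
  unfold SW.pre
  split_ifs
  exacts [ne_snd hω h, ne_fst hω h]

theorem pre_suc' (hω : ω ∈ DD V) {v : Pt} (h : ω.1 v ≠ ω.2 v) : SW.pre ω (SW.suc ω v) = v := by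
  have hv := mem_of_ne hω h
  by_cases hw : White v
  · have hb : Black (ω.1 v) := by
      rw [black_iff_not_white, SW.color_fst (pm1 hω) hv, black_iff_not_white]
      exact not_not.2 hw
    rw [SW.suc_white hw, SW.pre_black hb, (pm1 hω).invol]
  · have hb : Black v := black_iff_not_white.2 hw
    have hw' : White (ω.2 v) := (SW.color_snd (pm2 hω) hv).2 hb
    rw [SW.suc_black hb, SW.pre_white hw', (pm2 hω).invol]

theorem suc_pre' (hω : ω ∈ DD V) {v : Pt} (h : ω.1 v ≠ ω.2 v) : SW.suc ω (SW.pre ω v) = v := by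
  have hv := mem_of_ne hω h
  by_cases hw : White v
  · have hb : Black (ω.2 v) := by
      rw [black_iff_not_white, SW.color_snd (pm2 hω) hv, black_iff_not_white]
      exact not_not.2 hw
    rw [SW.pre_white hw, SW.suc_black hb, (pm2 hω).invol]
  · have hb : Black v := black_iff_not_white.2 hw
    have hw' : White (ω.1 v) := (SW.color_fst (pm1 hω) hv).2 hb
    rw [SW.pre_black hb, SW.suc_white hw', (pm1 hω).invol]

/-- The successor map as a permutation of the vertices on loops. -/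
noncomputable def sucPerm (hω : ω ∈ DD V) : Equiv.Perm {v // ω.1 v ≠ ω.2 v} where
  toFun v := ⟨SW.suc ω v, ne_suc hω v.2⟩
  invFun v := ⟨SW.pre ω v, ne_pre hω v.2⟩
  left_inv v := Subtype.ext (pre_suc' hω v.2)
  right_inv v := Subtype.ext (suc_pre' hω v.2)

theorem finite_loopVerts (hω : ω ∈ DD V) : Finite {v // ω.1 v ≠ ω.2 v} :=
  (V.finite_toSet.subset (fun v (hv : ω.1 v ≠ ω.2 v) => mem_of_ne hω hv) : Set.Finite _).to_subtype

theorem sucPerm_iter (hω : ω ∈ DD V) (v : {v // ω.1 v ≠ ω.2 v}) (i : ℕ) :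
    (((sucPerm hω)^[i] v : {v // ω.1 v ≠ ω.2 v}) : Pt) = (SW.suc ω)^[i] v := by
  induction i with
  | zero => rfl
  | succ i ih => rw [iterate_succ_apply', iterate_succ_apply', ← ih]; rfl

theorem ne_iter (hω : ω ∈ DD V) {v : Pt} (h : ω.1 v ≠ ω.2 v) (i : ℕ) :
    ω.1 ((SW.suc ω)^[i] v) ≠ ω.2 ((SW.suc ω)^[i] v) := by
  rw [← sucPerm_iter hω ⟨v, h⟩]
  exact ((sucPerm hω)^[i] ⟨v, h⟩).2

theorem periodic (hω : ω ∈ DD V) {v : Pt} (h : ω.1 v ≠ ω.2 v) :
    v ∈ periodicPts (SW.suc ω) := by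
  have := finite_loopVerts hω
  refine ⟨orderOf (sucPerm hω), orderOf_pos _, ?_⟩
  show (SW.suc ω)^[orderOf (sucPerm hω)] v = v
  rw [← sucPerm_iter hω ⟨v, h⟩, Equiv.Perm.iterate_eq_pow, pow_orderOf_eq_one]
  rfl

/-- The length of the loop through `v`. -/
noncomputable def len (ω : Conf) (v : Pt) : ℕ := minimalPeriod (SW.suc ω) v

theorem len_pos (hω : ω ∈ DD V) {v : Pt} (h : ω.1 v ≠ ω.2 v) : 0 < len ω v :=
  minimalPeriod_pos_of_mem_periodicPts (periodic hω h)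

theorem iter_mod (ω : Conf) (v : Pt) (i : ℕ) :
    (SW.suc ω)^[i % len ω v] v = (SW.suc ω)^[i] v := iterate_mod_minimalPeriod_eq

theorem iter_inj {v : Pt} {i j : ℕ} (hi : i < len ω v) (hj : j < len ω v)
    (h : (SW.suc ω)^[i] v = (SW.suc ω)^[j] v) : i = j :=
  (iterate_eq_iterate_iff_of_lt_minimalPeriod hi hj).1 h

theorem comp_eq (hω : ω ∈ DD V) {v : Pt} (h : ω.1 v ≠ ω.2 v) :
    comp ω v = (fun i => (SW.suc ω)^[i] v) '' Iio (len ω v) := by
  have hpos := len_pos hω h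
  apply Subset.antisymm
  · intro u hu
    have hu' : Same ω v u := hu
    unfold Same at hu'
    have hred : ∀ k : ℕ, ∃ i ∈ Iio (len ω v), (fun i => (SW.suc ω)^[i] v) i = (SW.suc ω)^[k] v :=
      fun k => ⟨k % len ω v, Nat.mod_lt _ hpos, iter_mod ω v k⟩
    induction hu' with
    | refl => exact ⟨0, hpos, rfl⟩
    | tail _ hstep ih =>
      rename_i b c hb
      obtain ⟨i, hi, rfl⟩ := ih hb
      have hne := ne_iter hω h i
      have hsuc : ∀ k, SW.suc ω ((SW.suc ω)^[k] v) = (SW.suc ω)^[k + 1] v := fun k =>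
        (iterate_succ_apply' _ _ _).symm
      have hpre : SW.pre ω ((SW.suc ω)^[i] v) = (SW.suc ω)^[i + (len ω v - 1)] v := by
        have e : (SW.suc ω)^[i] v = SW.suc ω ((SW.suc ω)^[i + (len ω v - 1)] v) := by
          rw [hsuc, show i + (len ω v - 1) + 1 = i + len ω v by omega, ← iter_mod ω v (i + _),
            Nat.add_mod_right, iter_mod]
        conv_lhs => rw [e]
        exact pre_suc' hω (ne_iter hω h _)
      have hcases : c = SW.suc ω ((SW.suc ω)^[i] v) ∨ c = SW.pre ω ((SW.suc ω)^[i] v) := by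
        by_cases hw : White ((SW.suc ω)^[i] v)
        · rw [SW.suc_white hw, SW.pre_white hw]
          exact hstep
        · have hb := black_iff_not_white.2 hw
          rw [SW.suc_black hb, SW.pre_black hb]
          exact hstep.symm
      rcases hcases with rfl | rfl
      · rw [hsuc]
        exact hred _
      · rw [hpre]
        exact hred _
  · rintro _ ⟨i, _, rfl⟩
    exact SW.same_iter ω v i

theorem ncard_comp (hω : ω ∈ DD V) {v : Pt} (h : ω.1 v ≠ ω.2 v) : (comp ω v).ncard = len ω v := by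
  rw [comp_eq hω h, Set.InjOn.ncard_image]
  · have : (Iio (len ω v) : Set ℕ) = (Finset.range (len ω v) : Finset ℕ) := by
      ext; simp
    rw [this, ncard_coe_finset, Finset.card_range]
  · intro i hi j hj hij
    exact iter_inj hi hj hij

/-- The vertices of the loop, indexed by `ℤ`. -/
noncomputable def yv (ω : Conf) (v : Pt) (j : ℤ) : Pt :=
  (SW.suc ω)^[(j % ((comp ω v).ncard : ℤ)).toNat] v

theorem cyc_eq (δ : ℝ) (a : ℂ) (ω : Conf) (v : Pt) (j : ℤ) :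
    Q1.cyc δ a ω v j = Q1.pt δ a (yv ω v j) := rfl

theorem yv_nat (hω : ω ∈ DD V) {v : Pt} (h : ω.1 v ≠ ω.2 v) (i : ℕ) :
    yv ω v i = (SW.suc ω)^[i] v := by
  unfold yv
  rw [ncard_comp hω h, ← Int.natCast_mod, Int.toNat_natCast, iter_mod]

theorem yv_suc (hω : ω ∈ DD V) {v : Pt} (h : ω.1 v ≠ ω.2 v) (j : ℤ) :
    yv ω v (j + 1) = SW.suc ω (yv ω v j) := by
  have hpos := len_pos hω h
  unfold yv
  rw [ncard_comp hω h, ← iterate_succ_apply' (SW.suc ω)]
  have h1 : 0 ≤ j % (len ω v : ℤ) := Int.emod_nonneg _ (by omega)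
  have h2 : j % (len ω v : ℤ) < len ω v := Int.emod_lt_of_pos _ (by omega)
  rcases eq_or_ne (j % (len ω v : ℤ) + 1) (len ω v) with h3 | h3
  · have e1 : (j + 1) % (len ω v : ℤ) = 0 := by
      rw [Int.add_emod, ← Int.emod_add_emod]
      simp [h3]
    have e2 : (j % (len ω v : ℤ)).toNat.succ = len ω v := by omega
    rw [e1, e2, ← iter_mod ω v (len ω v), Nat.mod_self]
    rfl
  · have e1 : (j + 1) % (len ω v : ℤ) = j % (len ω v : ℤ) + 1 := by
      rw [← Int.emod_add_emod]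
      exact Int.emod_eq_of_lt (by omega) (by omega)
    rw [e1]
    congr 1
    omega

theorem yv_add_nat (hω : ω ∈ DD V) {v : Pt} (h : ω.1 v ≠ ω.2 v) (j : ℤ) (i : ℕ) :
    yv ω v (j + i) = (SW.suc ω)^[i] (yv ω v j) := by
  induction i with
  | zero => simp
  | succ i ih =>
    push_cast
    rw [← add_assoc, yv_suc hω h, ih, iterate_succ_apply']

theorem yv_ne (hω : ω ∈ DD V) {v : Pt} (h : ω.1 v ≠ ω.2 v) (j : ℤ) :
    ω.1 (yv ω v j) ≠ ω.2 (yv ω v j) := ne_iter hω h _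

theorem yv_inj (hω : ω ∈ DD V) {v : Pt} (h : ω.1 v ≠ ω.2 v) {i j : ℤ} (hi : 0 ≤ i)
    (hi' : i < (comp ω v).ncard) (hj : 0 ≤ j) (hj' : j < (comp ω v).ncard)
    (he : yv ω v i = yv ω v j) : i = j := by
  obtain ⟨i, rfl⟩ := Int.eq_ofNat_of_zero_le hi
  obtain ⟨j, rfl⟩ := Int.eq_ofNat_of_zero_le hj
  rw [ncard_comp hω h] at hi' hj'
  have e1 : yv ω v i = (SW.suc ω)^[i] v := yv_nat hω h i
  have e2 : yv ω v j = (SW.suc ω)^[j] v := yv_nat hω h j
  rw [show ((i : ℕ) : ℤ) = (i : ℤ) from rfl, e1, e2] at he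
  have := iter_inj (by exact_mod_cast hi') (by exact_mod_cast hj') he
  exact_mod_cast this

theorem adj_suc (hω : ω ∈ DD V) {v : Pt} (h : ω.1 v ≠ ω.2 v) : Adj v (SW.suc ω v) := by
  have hv := mem_of_ne hω h
  unfold SW.suc
  split_ifs
  exacts [(pm1 hω).adj v hv, (pm2 hω).adj v hv]

theorem adj_yv (hω : ω ∈ DD V) {v : Pt} (h : ω.1 v ≠ ω.2 v) (j : ℤ) :
    Adj (yv ω v j) (yv ω v (j + 1)) := by
  rw [yv_suc hω h]
  exact adj_suc hω (yv_ne hω h j)

theorem dist_pt_of_adj {δ : ℝ} (hδ : 0 ≤ δ) (a : ℂ) {u v : Pt} (h : Adj u v) :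
    dist (Q1.pt δ a u) (Q1.pt δ a v) = δ := by
  have h' : |u.1 - v.1| + |u.2 - v.2| = 1 := h
  have key : (((u.1 : ℝ) - v.1) ^ 2 + ((u.2 : ℝ) - v.2) ^ 2) = 1 := by
    have h3 : (u.1 - v.1) ^ 2 + (u.2 - v.2) ^ 2 = 1 := by
      rcases abs_cases (u.1 - v.1) with ⟨h1, _⟩ | ⟨h1, _⟩ <;>
        rcases abs_cases (u.2 - v.2) with ⟨h2, _⟩ | ⟨h2, _⟩ <;>
          · have h4 : (u.1 - v.1 = 0 ∨ u.2 - v.2 = 0) := by omega
            rcases h4 with h4 | h4
            · have h5 : u.2 - v.2 = 1 ∨ u.2 - v.2 = -1 := by omega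
              rcases h5 with h5 | h5 <;> rw [h4, h5] <;> norm_num
            · have h5 : u.1 - v.1 = 1 ∨ u.1 - v.1 = -1 := by omega
              rcases h5 with h5 | h5 <;> rw [h4, h5] <;> norm_num
    exact_mod_cast h3
  have e : Q1.pt δ a u - Q1.pt δ a v =
      (δ : ℂ) * (((u.1 : ℝ) - v.1 : ℝ) + ((u.2 : ℝ) - v.2 : ℝ) * Complex.I) := by
    unfold Q1.pt
    push_cast
    ring
  rw [dist_eq_norm, e, norm_mul, Complex.norm_real, Real.norm_of_nonneg hδ,
    Complex.norm_add_mul_I, key, Real.sqrt_one, mul_one]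

end Vale.Agent.P155.TC
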