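import Vale.Agent.P155.H878.DetIface
import Vale.Agent.P155.H878.Orb
import Vale.Agent.P155.TC657.Orbit
import Vale.Agent.P155.TC657.OneLoop
import Vale.Agent.P155.K1.Extract

/-!
# P155, literal Q1: compactness of loops (CPT, CPT')
-/

namespace Vale.Agent.P155.TC

open Set Filter Topology Function Vale.Agent.P155

section General

theorem steps_bdd {E : Type*} [PseudoMetricSpace E] {f : ℝ → E} (hf : Continuous f) {ε : ℝ}
    (hε : 0 < ε) : ∃ N : ℕ, ∀ m, Steps f ε m → m ≤ N := by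
  obtain ⟨δ, hδ, h⟩ := Metric.uniformContinuousOn_iff.1
    (isCompact_Icc.uniformContinuousOn_of_continuous (hf.continuousOn (s := Icc (0 : ℝ) 1))) ε hε
  obtain ⟨N, hN⟩ := exists_nat_ge (1 / δ)
  refine ⟨N, fun m hm => ?_⟩
  obtain ⟨t, ht, ht0, htm, hs⟩ := hm
  have hmem : ∀ i ≤ m, t i ∈ Icc (0 : ℝ) 1 := fun i hi =>
    ⟨ht0.trans (ht (Nat.zero_le i)), (ht hi).trans htm⟩
  have key : ∀ i ≤ m, t 0 + i * δ ≤ t i := by
    intro i
    induction i with
    | zero => intro _; simp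
    | succ i ih =>
      intro hi
      have h1 := ih (by omega)
      have h2 : δ ≤ t (i + 1) - t i := by
        by_contra hc
        push Not at hc
        have h3 := h (t i) (hmem i (by omega)) (t (i + 1)) (hmem _ hi) (by
          rw [Real.dist_eq, abs_sub_comm, abs_of_nonneg (sub_nonneg.2 (ht (Nat.le_succ i)))]
          exact hc)
        exact absurd (hs i (by omega)) (not_le.2 h3)
      push_cast
      linarith
  have h4 := key m le_rfl
  have h5 : (m : ℝ) * δ ≤ 1 := by linarith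
  have h6 : (m : ℝ) ≤ 1 / δ := by rwa [le_div_iff₀ hδ]
  exact_mod_cast h6.trans hN

theorem exists_bound {P : ℕ → ℕ → Prop} (mono : ∀ j R R', R ≤ R' → P j R → P j R')
    (each : ∀ j, ∃ R, P j R) (ev : ∃ R, ∀ᶠ j in atTop, P j R) : ∃ R, ∀ j, P j R := by
  obtain ⟨R, hR⟩ := ev
  obtain ⟨J, hJ⟩ := eventually_atTop.1 hR
  choose B hB using each
  refine ⟨max R ((Finset.range J).sup B), fun j => ?_⟩
  rcases le_or_gt J j with h | h
  · exact mono j _ _ (le_max_left _ _) (hJ j h)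
  · exact mono j _ _ ((Finset.le_sup (f := B) (Finset.mem_range.2 h)).trans (le_max_right _ _))
      (hB j)

theorem poly_floor {x : ℤ → ℂ} {δ : ℝ} (hx : ∀ j, dist (x j) (x (j + 1)) ≤ δ) (t : ℝ) :
    dist (Q1.poly x t) (x ⌊t⌋) ≤ δ := by
  unfold Q1.poly
  rw [dist_eq_norm, add_sub_cancel_left, norm_mul, Complex.norm_real, Real.norm_eq_abs]
  have h1 : |t - ⌊t⌋| ≤ 1 := by
    rw [abs_of_nonneg (by linarith [Int.floor_le t])]
    linarith [Int.lt_floor_add_one t]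
  have h2 := hx ⌊t⌋
  rw [dist_comm, dist_eq_norm] at h2
  calc |t - ⌊t⌋| * ‖x (⌊t⌋ + 1) - x ⌊t⌋‖ ≤ 1 * δ :=
        mul_le_mul h1 h2 (norm_nonneg _) zero_le_one
    _ = δ := one_mul _

theorem poly_ceil {x : ℤ → ℂ} {δ : ℝ} (hδ : 0 ≤ δ) (hx : ∀ j, dist (x j) (x (j + 1)) ≤ δ)
    (t : ℝ) : dist (Q1.poly x t) (x ⌈t⌉) ≤ δ := by
  rcases eq_or_ne (⌈t⌉ : ℝ) t with h | h
  · rw [← h, Int.ceil_intCast, Q1.poly_int, dist_self]
    exact hδ
  · have h1 : ⌈t⌉ = ⌊t⌋ + 1 := by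
      rw [Int.ceil_eq_iff]
      push_cast
      have h2 := Int.floor_le t
      have h3 := Int.lt_floor_add_one t
      refine ⟨?_, h3.le⟩
      rw [add_sub_cancel_right]
      refine lt_of_le_of_ne h2 (fun h4 => h ?_)
      rw [← h4, Int.ceil_intCast]
    unfold Q1.poly
    rw [h1]
    have e : x ⌊t⌋ + ((t - ⌊t⌋ : ℝ) : ℂ) * (x (⌊t⌋ + 1) - x ⌊t⌋) - x (⌊t⌋ + 1) =
        ((t - ⌊t⌋ - 1 : ℝ) : ℂ) * (x (⌊t⌋ + 1) - x ⌊t⌋) := by
      push_cast
      ring
    rw [dist_eq_norm, e, norm_mul, Complex.norm_real, Real.norm_eq_abs]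
    have h4 : |t - ⌊t⌋ - 1| ≤ 1 := by
      rw [abs_le]
      constructor <;> linarith [Int.floor_le t, Int.lt_floor_add_one t]
    have h2 := hx ⌊t⌋
    rw [dist_comm, dist_eq_norm] at h2
    calc |t - ⌊t⌋ - 1| * ‖x (⌊t⌋ + 1) - x ⌊t⌋‖ ≤ 1 * δ :=
          mul_le_mul h4 h2 (norm_nonneg _) zero_le_one
      _ = δ := one_mul _

end General

section Cnt

variable {V : Finset Pt} {ω : Conf} {v : Pt} {δ : ℝ} {a : ℂ}

theorem dist_cyc (hω : ω ∈ DD V) (hv : ω.1 v ≠ ω.2 v) (hδ : 0 ≤ δ) (j : ℤ) :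
    dist (Q1.cyc δ a ω v j) (Q1.cyc δ a ω v (j + 1)) ≤ δ := by
  rw [cyc_eq, cyc_eq]
  exact (dist_pt_of_adj hδ a (adj_yv hω hv j)).le

/-- The number of steps of a lattice loop is bounded by the number of disjoint pieces. -/
theorem steps_le_of_cnt (hω : ω ∈ DD V) (hv : ω.1 v ≠ ω.2 v) (hδ : 0 < δ) {ε : ℝ}
    (hε : 4 * δ ≤ ε) {M : ℕ}
    (hM : ∀ A : Finset (Pt × ℕ),
      (∀ p ∈ A, ω.1 p.1 ≠ ω.2 p.1 ∧ p.1 ∈ comp ω v ∧
        ∃ i ≤ p.2, ∃ i' ≤ p.2, ε / 2 ≤ dist (Q1.pt δ a ((SW.suc ω)^[i] p.1))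
          (Q1.pt δ a ((SW.suc ω)^[i'] p.1))) →
      (∀ p ∈ A, ∀ p' ∈ A, p ≠ p' → ∀ i < p.2, ∀ i' < p'.2,
        (SW.suc ω)^[i] p.1 ≠ (SW.suc ω)^[i'] p'.1) → A.card ≤ M) (m : ℕ)
    (hm : Steps (lft (Q1.lcurve δ a ω v).c) ε m) : m ≤ M := by
  obtain ⟨t, ht, ht0, htm, hs⟩ := hm
  set n := (comp ω v).ncard with hn
  have hn0 : 0 < n := by rw [hn, ncard_comp hω hv]; exact len_pos hω hv
  have hn0' : (0 : ℝ) < n := by exact_mod_cast hn0
  have hlft : ∀ s : ℝ, lft (Q1.lcurve δ a ω v).c s = Q1.poly (Q1.cyc δ a ω v) (n * s) :=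
    fun s => rfl
  set A : ℕ → ℤ := fun i => ⌈(n : ℝ) * t i⌉ with hA
  set B : ℕ → ℤ := fun i => ⌊(n : ℝ) * t i⌋ with hB
  have hd := dist_cyc (a := a) hω hv hδ.le
  have hmem : ∀ i ≤ m, 0 ≤ t i ∧ t i ≤ 1 := fun i hi =>
    ⟨ht0.trans (ht (Nat.zero_le i)), (ht hi).trans htm⟩
  -- one step
  have hstep : ∀ i < m, ε - 2 * δ ≤
      dist (Q1.cyc δ a ω v (A i)) (Q1.cyc δ a ω v (B (i + 1))) := by
    intro i hi
    have h1 := hs i hi
    rw [hlft, hlft] at h1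
    have h2 := poly_ceil hδ.le hd ((n : ℝ) * t i)
    have h3 := poly_floor hd ((n : ℝ) * t (i + 1))
    have h4 := dist_triangle4 (Q1.poly (Q1.cyc δ a ω v) (n * t i)) (Q1.cyc δ a ω v (A i))
      (Q1.cyc δ a ω v (B (i + 1))) (Q1.poly (Q1.cyc δ a ω v) (n * t (i + 1)))
    rw [dist_comm (Q1.poly (Q1.cyc δ a ω v) (n * t (i + 1)))] at h3
    linarith
  have hAB : ∀ i < m, A i < B (i + 1) := by
    intro i hi
    by_contra hc
    push Not at hc
    have h1 := hstep i hi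
    have h2 : (n : ℝ) * t i ≤ n * t (i + 1) := by
      have := ht (Nat.le_succ i)
      gcongr
    have h3 : A i ≤ B (i + 1) + 1 := by
      have h4 : A i ≤ ⌈(n : ℝ) * t (i + 1)⌉ := Int.ceil_mono h2
      exact h4.trans (Int.ceil_le_floor_add_one _)
    rcases hc.eq_or_lt with h | h
    · rw [h, dist_self] at h1
      linarith
    · have h5 : A i = B (i + 1) + 1 := by omega
      rw [h5, dist_comm] at h1
      have := hd (B (i + 1))
      linarith
  have hA0 : ∀ i ≤ m, 0 ≤ A i := by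
    intro i hi
    have : (0 : ℝ) ≤ n * t i := mul_nonneg hn0'.le (hmem i hi).1
    exact Int.ceil_nonneg this
  have hBn : ∀ i ≤ m, B i ≤ n := by
    intro i hi
    have h1 : (n : ℝ) * t i ≤ n := by
      have := (hmem i hi).2
      calc (n : ℝ) * t i ≤ n * 1 := by gcongr
        _ = n := mul_one _
    have h2 : B i ≤ ⌊(n : ℝ)⌋ := Int.floor_mono h1
    simpa using h2
  have hBA : ∀ i j, i ≤ j → B i ≤ A j := by
    intro i j hij
    have h2 : (n : ℝ) * t i ≤ n * t j := by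
      have := ht hij
      gcongr
    exact (Int.floor_mono h2).trans (Int.floor_le_ceil _)
  -- the pieces
  set f : ℕ → Pt × ℕ := fun i => (yv ω v (A i), (B (i + 1) - A i).toNat) with hf
  have hiter : ∀ i < m, ∀ k : ℕ, (SW.suc ω)^[k] (f i).1 = yv ω v (A i + k) := by
    intro i _ k
    exact (yv_add_nat hω hv (A i) k).symm
  have hlen : ∀ i < m, ((f i).2 : ℤ) = B (i + 1) - A i := by
    intro i hi
    exact Int.toNat_of_nonneg (by have := hAB i hi; omega)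
  have hdisj : ∀ i < m, ∀ i' < m, i < i' → ∀ k < (f i).2, ∀ k' < (f i').2,
      (SW.suc ω)^[k] (f i).1 ≠ (SW.suc ω)^[k'] (f i').1 := by
    intro i hi i' hi' hii k hk k' hk' he
    rw [hiter i hi, hiter i' hi'] at he
    have h1 := hlen i hi
    have h2 := hlen i' hi'
    have h3 := hBA (i + 1) i' hii
    have h4 := hA0 i hi.le
    have h5 := hBn (i' + 1) hi'
    have := yv_inj hω hv (by omega) (by omega) (by omega) (by omega) he
    omega
  have hinj : InjOn f (Finset.range m : Finset ℕ) := by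
    intro i hi i' hi' he
    have hi1 : i < m := Finset.mem_range.1 hi
    have hi2 : i' < m := Finset.mem_range.1 hi'
    by_contra hne
    have h1 : 0 < (f i).2 := by have := hlen i hi1; have := hAB i hi1; omega
    have h2 : 0 < (f i').2 := by have := hlen i' hi2; have := hAB i' hi2; omega
    rcases lt_or_gt_of_ne hne with h | h
    · exact hdisj i hi1 i' hi2 h 0 h1 0 h2 (by rw [he])
    · exact hdisj i' hi2 i hi1 h 0 h2 0 h1 (by rw [he])
  have hcard := hM ((Finset.range m).image f) ?_ ?_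
  · rwa [Finset.card_image_of_injOn hinj, Finset.card_range] at hcard
  · intro p hp
    obtain ⟨i, hi, rfl⟩ := Finset.mem_image.1 hp
    have hi1 : i < m := Finset.mem_range.1 hi
    refine ⟨yv_ne hω hv _, Q1.iter_comp ω v _, 0, Nat.zero_le _, (f i).2, le_rfl, ?_⟩
    rw [hiter i hi1, hiter i hi1, hlen i hi1]
    have h1 := hstep i hi1
    rw [cyc_eq, cyc_eq] at h1
    have e1 : A i + ((0 : ℕ) : ℤ) = A i := by simp
    have e2 : A i + (B (i + 1) - A i) = B (i + 1) := by ring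
    rw [e1, e2]
    linarith
  · intro p hp p' hp' hne k hk k' hk'
    obtain ⟨i, hi, rfl⟩ := Finset.mem_image.1 hp
    obtain ⟨i', hi', rfl⟩ := Finset.mem_image.1 hp'
    have hi1 : i < m := Finset.mem_range.1 hi
    have hi2 : i' < m := Finset.mem_range.1 hi'
    rcases lt_trichotomy i i' with h | h | h
    · exact hdisj i hi1 i' hi2 h k hk k' hk'
    · exact absurd (by rw [h]) hne
    · exact (hdisj i' hi2 i hi1 h k' hk' k hk).symm

end Cnt

section Region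

/-- A vertex of the Temperleyan graph lies in the closed polygon. -/
theorem pt_mem_region {T : Temp} {v : Pt} (hv : v ∈ T.V) (δ : ℝ) (a : ℂ) :
    Q1.pt δ a v ∈ region δ a T.faceSet := by
  have hv' : v ∈ T.closedVerts := by
    unfold Temp.V at hv
    split_ifs at hv with h
    · exact ((h.mem_toFinset).1 hv).1
    · simp at hv
  obtain ⟨f, hf, h1, h2, h3, h4⟩ := hv'
  -- the fine face
  set x : ℤ := if v.1 ≤ 2 * f.1 + 1 then v.1 else v.1 - 1 with hx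
  set y : ℤ := if v.2 ≤ 2 * f.2 + 1 then v.2 else v.2 - 1 with hy
  have hx' : (x = v.1 ∨ x = v.1 - 1) ∧ 2 * f.1 ≤ x ∧ x ≤ 2 * f.1 + 1 := by
    rw [hx]
    split_ifs <;> omega
  have hy' : (y = v.2 ∨ y = v.2 - 1) ∧ 2 * f.2 ≤ y ∧ y ≤ 2 * f.2 + 1 := by
    rw [hy]
    split_ifs <;> omega
  unfold region
  refine mem_iUnion₂.2 ⟨(x, y), ⟨f, hf, hx'.2.1, hx'.2.2, hy'.2.1, hy'.2.2⟩, ?_⟩
  have hs : ∃ s : ℝ, 0 ≤ s ∧ s ≤ 1 ∧ (v.1 : ℝ) = x + s := by
    rcases hx'.1 with h | h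
    · exact ⟨0, le_rfl, zero_le_one, by rw [h]; simp⟩
    · exact ⟨1, zero_le_one, le_rfl, by rw [h]; push_cast; ring⟩
  have ht : ∃ s : ℝ, 0 ≤ s ∧ s ≤ 1 ∧ (v.2 : ℝ) = y + s := by
    rcases hy'.1 with h | h
    · exact ⟨0, le_rfl, zero_le_one, by rw [h]; simp⟩
    · exact ⟨1, zero_le_one, le_rfl, by rw [h]; push_cast; ring⟩
  obtain ⟨s, hs0, hs1, hse⟩ := hs
  obtain ⟨t, ht0, ht1, hte⟩ := ht
  refine ⟨s, t, hs0, hs1, ht0, ht1, ?_⟩
  unfold Q1.pt
  have e1 : (v.1 : ℂ) = ((v.1 : ℝ) : ℂ) := by push_cast; rfl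
  have e2 : (v.2 : ℂ) = ((v.2 : ℝ) : ℂ) := by push_cast; rfl
  rw [e1, e2, hse, hte]

end Region

end Vale.Agent.P155.TC
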