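import Mathlib

/-!
# P155, tightness criterion: greedy partitions and time changes

A continuous curve on `[0,1]` with at most `N` successive steps of size `≥ ε` is cut into `N + 1`
pieces of oscillation `≤ ε`; the corresponding piecewise linear time change.
-/

namespace Vale.Agent.P155.TC

open Set Filter Topology

variable {E : Type*} [PseudoMetricSpace E]

/-- `γ` makes `m` successive steps of size at least `ε` during `[0,1]`. -/
def Steps (γ : ℝ → E) (ε : ℝ) (m : ℕ) : Prop :=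
  ∃ t : ℕ → ℝ, Monotone t ∧ 0 ≤ t 0 ∧ t m ≤ 1 ∧ ∀ i < m, ε ≤ dist (γ (t i)) (γ (t (i + 1)))

/-- The next greedy time. -/
noncomputable def nxt (γ : ℝ → E) (ε : ℝ) (s : ℝ) : ℝ :=
  sInf (insert 1 {x | s ≤ x ∧ x ≤ 1 ∧ ε ≤ dist (γ s) (γ x)})

section nxt

variable {γ : ℝ → E} {ε s : ℝ}

theorem nxt_bdd (hs : s ≤ 1) :
    BddBelow (insert 1 {x | s ≤ x ∧ x ≤ 1 ∧ ε ≤ dist (γ s) (γ x)}) :=
  ⟨s, by rintro x (rfl | hx); exacts [hs, hx.1]⟩

theorem le_nxt (hs : s ≤ 1) : s ≤ nxt γ ε s :=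
  le_csInf ⟨1, Or.inl rfl⟩ (by rintro x (rfl | hx); exacts [hs, hx.1])

theorem nxt_le (hs : s ≤ 1) : nxt γ ε s ≤ 1 := csInf_le (nxt_bdd hs) (Or.inl rfl)

theorem dist_lt_of_lt_nxt (hs : s ≤ 1) {x : ℝ} (h1 : s ≤ x) (h2 : x < nxt γ ε s) :
    dist (γ s) (γ x) < ε := by
  by_contra h
  exact absurd (csInf_le (nxt_bdd hs) (Or.inr ⟨h1, (h2.trans_le (nxt_le hs)).le, not_lt.1 h⟩))
    (not_le.2 h2)

theorem dist_le_of_le_nxt (hε : 0 ≤ ε) (hγ : Continuous γ) (hs : s ≤ 1) {x : ℝ} (h1 : s ≤ x)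
    (h2 : x ≤ nxt γ ε s) : dist (γ s) (γ x) ≤ ε := by
  rcases h1.eq_or_lt with rfl | h1'
  · simpa using hε
  rcases h2.lt_or_eq with h2' | h2'
  · exact (dist_lt_of_lt_nxt hs h1 h2').le
  · have hx : x ∈ closure (Ico s x) := by
      rw [closure_Ico h1'.ne]
      exact ⟨h1, le_rfl⟩
    have hcl : IsClosed {y | dist (γ s) (γ y) ≤ ε} :=
      isClosed_le (continuous_const.dist hγ) continuous_const
    have : closure (Ico s x) ⊆ {y | dist (γ s) (γ y) ≤ ε} :=
      hcl.closure_subset_iff.2 (fun y hy => (dist_lt_of_lt_nxt hs hy.1 (h2' ▸ hy.2)).le)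
    exact this hx

theorem le_dist_nxt (hγ : Continuous γ) (hs : s ≤ 1) (h : nxt γ ε s < 1) :
    ε ≤ dist (γ s) (γ (nxt γ ε s)) := by
  have hcl : IsClosed (insert 1 {x | s ≤ x ∧ x ≤ 1 ∧ ε ≤ dist (γ s) (γ x)}) := by
    rw [Set.insert_eq]
    exact isClosed_singleton.union (isClosed_Ici.inter (isClosed_Iic.inter
      (isClosed_le continuous_const (continuous_const.dist hγ))))
  rcases hcl.csInf_mem ⟨1, Or.inl rfl⟩ (nxt_bdd hs) with h' | h'
  · exact absurd h' h.ne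
  · exact h'.2.2

end nxt

/-- The greedy times. -/
noncomputable def gt (γ : ℝ → E) (ε : ℝ) : ℕ → ℝ
  | 0 => 0
  | i + 1 => nxt γ ε (gt γ ε i)

theorem gt_mem (γ : ℝ → E) (ε : ℝ) (i : ℕ) : 0 ≤ gt γ ε i ∧ gt γ ε i ≤ 1 := by
  induction i with
  | zero => simp [gt]
  | succ i ih => exact ⟨ih.1.trans (le_nxt ih.2), nxt_le ih.2⟩

theorem gt_mono (γ : ℝ → E) (ε : ℝ) : Monotone (gt γ ε) :=
  monotone_nat_of_le_succ (fun i => le_nxt (gt_mem γ ε i).2)

theorem gt_eq_one {γ : ℝ → E} (hγ : Continuous γ) {ε : ℝ} {N : ℕ}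
    (hN : ∀ m, Steps γ ε m → m ≤ N) : gt γ ε (N + 1) = 1 := by
  by_contra h
  have hlt : gt γ ε (N + 1) < 1 := lt_of_le_of_ne (gt_mem γ ε _).2 h
  have := hN (N + 1) ⟨gt γ ε, gt_mono γ ε, (gt_mem γ ε 0).1, (gt_mem γ ε _).2, fun i hi => ?_⟩
  · omega
  · exact le_dist_nxt hγ (gt_mem γ ε i).2 ((gt_mono γ ε (by omega : i + 1 ≤ N + 1)).trans_lt hlt)

theorem gt_dist {γ : ℝ → E} (hγ : Continuous γ) {ε : ℝ} (hε : 0 ≤ ε) (i : ℕ) {x : ℝ}
    (h1 : gt γ ε i ≤ x) (h2 : x ≤ gt γ ε (i + 1)) : dist (γ (gt γ ε i)) (γ x) ≤ ε :=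
  dist_le_of_le_nxt hε hγ (gt_mem γ ε i).2 h1 h2

/-- Clamp. -/
noncomputable def cl (x : ℝ) : ℝ := max 0 (min 1 x)

theorem cl_mono : Monotone cl := fun _ _ h => max_le_max le_rfl (min_le_min le_rfl h)

theorem cl_cont : Continuous cl := continuous_const.max (continuous_const.min continuous_id)

theorem cl_nonneg (x : ℝ) : 0 ≤ cl x := le_max_left _ _

theorem cl_le_one (x : ℝ) : cl x ≤ 1 := max_le zero_le_one (min_le_left _ _)

theorem cl_of_le_zero {x : ℝ} (h : x ≤ 0) : cl x = 0 :=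
  max_eq_left ((min_le_right _ _).trans h)

theorem cl_of_one_le {x : ℝ} (h : 1 ≤ x) : cl x = 1 := by
  rw [cl, min_eq_left h, max_eq_right zero_le_one]

/-- One piece of the time change. -/
noncomputable def pc (a b x : ℝ) : ℝ := if a < b then cl ((x - a) / (b - a)) else cl x

theorem pc_mono (a b : ℝ) : Monotone (pc a b) := by
  intro x y h
  unfold pc
  split_ifs with hab
  · apply cl_mono
    have : 0 < b - a := sub_pos.2 hab
    gcongr
  · exact cl_mono h

theorem pc_cont (a b : ℝ) : Continuous (pc a b) := by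
  unfold pc
  split_ifs with hab
  · exact cl_cont.comp ((continuous_id.sub continuous_const).div_const _)
  · exact cl_cont

theorem pc_nonneg (a b x : ℝ) : 0 ≤ pc a b x := by
  unfold pc; split_ifs <;> exact cl_nonneg _

theorem pc_le_one (a b x : ℝ) : pc a b x ≤ 1 := by
  unfold pc; split_ifs <;> exact cl_le_one _

theorem pc_zero {a b : ℝ} (ha : 0 ≤ a) : pc a b 0 = 0 := by
  unfold pc
  split_ifs with hab
  · exact cl_of_le_zero (div_nonpos_of_nonpos_of_nonneg (by linarith) (by linarith))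
  · exact cl_of_le_zero le_rfl

theorem pc_one {a b : ℝ} (hb : b ≤ 1) : pc a b 1 = 1 := by
  unfold pc
  split_ifs with hab
  · exact cl_of_one_le (by rw [le_div_iff₀ (by linarith)]; linarith)
  · exact cl_of_one_le le_rfl

theorem pc_sub {a b x y : ℝ} (hab : a < b) (h1 : x ≤ a) (h2 : b ≤ y) :
    pc a b y - pc a b x = 1 := by
  have hb : 0 < b - a := sub_pos.2 hab
  unfold pc
  rw [if_pos hab, if_pos hab,
    cl_of_le_zero (x := (x - a) / (b - a)) (div_nonpos_of_nonpos_of_nonneg (by linarith) hb.le),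
    cl_of_one_le (x := (y - a) / (b - a)) (by rw [le_div_iff₀ hb]; linarith), sub_zero]

/-- The time change of one scale. -/
noncomputable def tc (γ : ℝ → E) (ε : ℝ) (N : ℕ) (x : ℝ) : ℝ :=
  (∑ i ∈ Finset.range (N + 1), pc (gt γ ε i) (gt γ ε (i + 1)) x) / (N + 1)

theorem tc_mono (γ : ℝ → E) (ε : ℝ) (N : ℕ) : Monotone (tc γ ε N) := by
  intro x y h
  unfold tc
  gcongr
  exact pc_mono _ _ h

theorem tc_cont (γ : ℝ → E) (ε : ℝ) (N : ℕ) : Continuous (tc γ ε N) := by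
  unfold tc
  exact (continuous_finsetSum _ (fun i _ => pc_cont _ _)).div_const _

theorem tc_nonneg (γ : ℝ → E) (ε : ℝ) (N : ℕ) (x : ℝ) : 0 ≤ tc γ ε N x :=
  div_nonneg (Finset.sum_nonneg (fun i _ => pc_nonneg _ _ _)) (by positivity)

theorem tc_le_one (γ : ℝ → E) (ε : ℝ) (N : ℕ) (x : ℝ) : tc γ ε N x ≤ 1 := by
  unfold tc
  rw [div_le_one (by positivity)]
  calc _ ≤ ∑ i ∈ Finset.range (N + 1), (1 : ℝ) := Finset.sum_le_sum (fun i _ => pc_le_one _ _ _)
    _ = _ := by simp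

theorem tc_zero (γ : ℝ → E) (ε : ℝ) (N : ℕ) : tc γ ε N 0 = 0 := by
  unfold tc
  rw [Finset.sum_eq_zero (fun i _ => pc_zero (gt_mem γ ε i).1), zero_div]

theorem tc_one (γ : ℝ → E) (ε : ℝ) (N : ℕ) : tc γ ε N 1 = 1 := by
  unfold tc
  rw [Finset.sum_congr rfl (fun i _ => pc_one (gt_mem γ ε (i + 1)).2)]
  simp only [Finset.sum_const, Finset.card_range, nsmul_eq_mul, mul_one, Nat.cast_add,
    Nat.cast_one]
  exact div_self (by positivity)

theorem exists_gt_piece {γ : ℝ → E} {ε : ℝ} {N : ℕ} (h1 : gt γ ε (N + 1) = 1) {x : ℝ}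
    (hx : x ∈ Icc (0 : ℝ) 1) : ∃ i ≤ N, gt γ ε i ≤ x ∧ x ≤ gt γ ε (i + 1) := by
  classical
  have hex : ∃ i, x ≤ gt γ ε (i + 1) := ⟨N, by rw [h1]; exact hx.2⟩
  refine ⟨Nat.find hex, Nat.find_le (by rw [h1]; exact hx.2), ?_, Nat.find_spec hex⟩
  rcases Nat.eq_zero_or_pos (Nat.find hex) with h0 | h0
  · rw [h0]; simpa [gt] using hx.1
  · have := Nat.find_min hex (Nat.sub_one_lt h0.ne')
    rw [Nat.sub_add_cancel h0] at this
    exact (not_le.1 this).le

/-- Small increments of the time change imply small oscillation. -/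
theorem dist_le_of_tc {γ : ℝ → E} (hγ : Continuous γ) {ε : ℝ} (hε : 0 ≤ ε) {N : ℕ}
    (hN : ∀ m, Steps γ ε m → m ≤ N) {x y : ℝ} (hx : x ∈ Icc (0 : ℝ) 1) (hy : y ∈ Icc (0 : ℝ) 1)
    (hxy : x ≤ y) (h : (tc γ ε N y - tc γ ε N x) * (N + 1) < 1) : dist (γ x) (γ y) ≤ 3 * ε := by
  have hone := gt_eq_one hγ hN
  obtain ⟨i, hi, hi1, hi2⟩ := exists_gt_piece hone hx
  obtain ⟨k, hk, hk1, hk2⟩ := exists_gt_piece hone hy
  have dx := gt_dist hγ hε i hi1 hi2
  have dy := gt_dist hγ hε k hk1 hk2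
  by_cases hyi : y ≤ gt γ ε (i + 1)
  · have d2 := gt_dist hγ hε i (hi1.trans hxy) hyi
    have := dist_triangle_left (γ x) (γ y) (γ (gt γ ε i))
    linarith
  · push Not at hyi
    have hik : i + 1 ≤ k := by
      by_contra hc
      push Not at hc
      exact absurd (hk2.trans (gt_mono γ ε (by omega : k + 1 ≤ i + 1))) (not_le.2 hyi)
    -- all intermediate pieces are degenerate
    have hdeg : ∀ l, i + 1 ≤ l → l ≤ k → gt γ ε l = gt γ ε (i + 1) := by
      intro l hl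
      induction l, hl using Nat.le_induction with
      | base => intro _; rfl
      | succ l hl ih =>
        intro hlk
        have e1 := ih (by omega)
        by_contra hne
        have hlt : gt γ ε l < gt γ ε (l + 1) :=
          lt_of_le_of_ne (gt_mono γ ε (Nat.le_succ l)) (by rw [e1]; exact fun h => hne h.symm)
        have hsub := pc_sub hlt (x := x) (y := y) (by rw [e1]; exact hi2)
          ((gt_mono γ ε hlk).trans hk1)
        have hge : 1 ≤ (tc γ ε N y - tc γ ε N x) * (N + 1) := by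
          unfold tc
          rw [← sub_div, div_mul_cancel₀ _ (by positivity), ← Finset.sum_sub_distrib, ← hsub]
          exact Finset.single_le_sum (f := fun l => pc (gt γ ε l) (gt γ ε (l + 1)) y -
            pc (gt γ ε l) (gt γ ε (l + 1)) x)
            (fun l _ => sub_nonneg.2 (pc_mono _ _ hxy)) (Finset.mem_range.2 (by omega))
        linarith
    have e := hdeg k hik le_rfl
    have d1 := gt_dist hγ hε i (gt_mono γ ε (Nat.le_succ i)) le_rfl
    rw [e] at dy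
    have t1 := dist_triangle_left (γ x) (γ (gt γ ε (i + 1))) (γ (gt γ ε i))
    have t2 := dist_triangle (γ x) (γ (gt γ ε (i + 1))) (γ y)
    linarith

end Vale.Agent.P155.TC
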