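import Vale.Agent.P155.K.Supp

/-!
# P155, literal Q1: extended continuous mapping theorem with tight side conditions

As `K.ecmt`, but the functionals need to converge only along sequences of configurations which
satisfy countably many side conditions, each of them tight.
-/

namespace Vale.Agent.P155.TC

open MeasureTheory Filter Topology Vale.Agent.P155.K

theorem avg_add {ι : Type*} (D : Finset ι) (f g : ι → ℝ) :
    avg D (fun i => f i + g i) = avg D f + avg D g := by
  unfold avg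
  rw [Finset.sum_add_distrib, smul_add]

theorem avg_const_mul {ι : Type*} (D : Finset ι) (c : ℝ) (f : ι → ℝ) :
    avg D (fun i => c * f i) = c * avg D f := by
  unfold avg
  rw [← Finset.mul_sum, smul_eq_mul, smul_eq_mul]
  ring

theorem avg_sum {ι κ : Type*} (D : Finset ι) (s : Finset κ) (f : κ → ι → ℝ) :
    avg D (fun i => ∑ j ∈ s, f j i) = ∑ j ∈ s, avg D (f j) := by
  unfold avg
  rw [Finset.sum_comm, Finset.smul_sum]

section

open Classical in
/-- the configurations of `D n` outside `D' n` -/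
noncomputable def bad {ι : Type*} (D' : ℕ → Finset ι) (n : ℕ) (i : ι) : ℝ :=
  if i ∈ D' n then 0 else 1

variable {ι E Θ : Type*} [PseudoMetricSpace E] [MeasurableSpace Θ] (P : Measure Θ)
    [IsProbabilityMeasure P] {D D' : ℕ → Finset ι} {Y : ℕ → ι → E} {Z : Θ → E}
    {Φn : ℕ → ι → ℝ} {Φ : Θ → ℝ} {M : ℝ}

open Classical in
/-- One level: the limit envelopes of the restricted configurations. -/
theorem pass_one (hM0 : 0 < M)
    (hZ : ∀ F : E → ℝ, Continuous F → AEStronglyMeasurable (fun x => F (Z x)) P)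
    (hLIM : ∀ F : E → ℝ, Continuous F → (∃ C, ∀ y, |F y| ≤ C) →
      Tendsto (fun n => avg (D n) (fun i => F (Y n i))) atTop (𝓝 (∫ x, F (Z x) ∂P)))
    (hM : ∀ n, ∀ i ∈ D n, |Φn n i| ≤ M) (hsub : ∀ n, D' n ⊆ D n) {δ : ℝ}
    (hδ : ∀ n, avg (D n) (bad D' n) ≤ δ)
    (hlim : ∀ᵐ x ∂P, ∀ (n : ℕ → ℕ) (ω : ℕ → ι), Tendsto n atTop atTop → (∀ j, ω j ∈ D' (n j)) →
      Tendsto (fun j => Y (n j) (ω j)) atTop (𝓝 (Z x)) →
      Tendsto (fun j => Φn (n j) (ω j)) atTop (𝓝 (Φ x))) :
    AEStronglyMeasurable (fun x => if IsLim D' Y (Z x) then Φ x else -M) P ∧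
    (∀ᵐ x ∂P, |if IsLim D' Y (Z x) then Φ x else -M| ≤ M) ∧
    (∀ ε > 0, ∀ᶠ n in atTop, avg (D n) (Φn n) <
      (∫ x, (if IsLim D' Y (Z x) then Φ x else -M) ∂P) + 2 * M * δ + ε) := by
  have hM' : ∀ n, ∀ i ∈ D' n, |Φn n i| ≤ M := fun n i hi => hM n i (hsub n hi)
  set W : ℕ → Θ → ℝ := fun m x => env D' Y Φn M m (Z x) with hW
  set Winf : Θ → ℝ := fun x => if IsLim D' Y (Z x) then Φ x else -M with hWinf
  have mW : ∀ m, AEStronglyMeasurable (W m) P := fun m => hZ _ (env_cont hM0.le hM' m)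
  have cW : ∀ᵐ x ∂P, Tendsto (fun m => W m x) atTop (𝓝 (Winf x)) := by
    filter_upwards [hlim] with x hx
    by_cases h : IsLim D' Y (Z x)
    · simp only [hWinf, h, if_true]
      exact env_tendsto_of_lim hM0.le hM' h hx
    · simp only [hWinf, h, if_false]
      exact env_tendsto_of_not hM0.le hM' h
  have mWinf : AEStronglyMeasurable Winf P := aestronglyMeasurable_of_tendsto_ae atTop mW cW
  have bW : ∀ m x, ‖W m x‖ ≤ M := fun m x => abs_env_le hM0.le hM' m _
  have iW : Tendsto (fun m => ∫ x, W m x ∂P) atTop (𝓝 (∫ x, Winf x ∂P)) :=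
    tendsto_integral_of_dominated_convergence (fun _ => M) mW (integrable_const _)
      (fun m => Eventually.of_forall (bW m)) cW
  refine ⟨mWinf, ?_, ?_⟩
  · filter_upwards [cW] with x hx
    exact le_of_tendsto hx.norm (Eventually.of_forall (fun m => bW m x))
  · intro ε hε
    obtain ⟨m, hm⟩ := ((tendsto_order.1 iW).2 ((∫ x, Winf x ∂P) + ε / 2) (by linarith)).exists
    have h1 := hLIM (env D' Y Φn M m) (env_cont hM0.le hM' m) ⟨M, abs_env_le hM0.le hM' m⟩
    have h2 := (tendsto_order.1 h1).2 ((∫ x, Winf x ∂P) + ε) (by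
      have : ∫ x, env D' Y Φn M m (Z x) ∂P = ∫ x, W m x ∂P := rfl
      rw [this]
      linarith)
    filter_upwards [h2, eventually_ge_atTop m] with n hn hnm
    have h3 : avg (D n) (Φn n) ≤
        avg (D n) (fun i => env D' Y Φn M m (Y n i) + 2 * M * bad D' n i) := by
      refine avg_mono _ ?_
      intro i hi
      by_cases h : i ∈ D' n
      · have h3 : Φn n i - m * dist (Y n i) (Y n i) ≤ env D' Y Φn M m (Y n i) :=
          le_env hM0.le hM' (Or.inr ⟨n, hnm, i, h, rfl⟩)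
        simp only [bad, h, if_true]
        simpa using h3
      · simp only [bad, h, if_false]
        have h4 := (abs_le.1 (hM n i hi)).2
        have h5 := (abs_le.1 (abs_env_le (D := D') (Y := Y) hM0.le hM' m (Y n i))).1
        linarith
    rw [avg_add, avg_const_mul] at h3
    have h4 : 2 * M * avg (D n) (bad D' n) ≤ 2 * M * δ :=
      mul_le_mul_of_nonneg_left (hδ n) (by linarith)
    linarith

end

open Classical in
/-- **Extended continuous mapping theorem with tight side conditions.** -/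
theorem pass {ι E Θ : Type*} [PseudoMetricSpace E] [MeasurableSpace Θ] (P : Measure Θ)
    [IsProbabilityMeasure P] {D : ℕ → Finset ι} {Y : ℕ → ι → E} {Z : Θ → E}
    (hZ : ∀ F : E → ℝ, Continuous F → AEStronglyMeasurable (fun x => F (Z x)) P)
    (hLIM : ∀ F : E → ℝ, Continuous F → (∃ C, ∀ y, |F y| ≤ C) →
      Tendsto (fun n => avg (D n) (fun i => F (Y n i))) atTop (𝓝 (∫ x, F (Z x) ∂P)))
    (cond : ℕ → ℕ → ℕ → ι → Prop)
    (htight : ∀ i, ∀ ε : ℝ, 0 < ε → ∃ c, ∀ᶠ n in atTop,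
      avg (D n) (fun ω => if cond i c n ω then (0 : ℝ) else 1) ≤ ε)
    {Φn : ℕ → ι → ℝ} {Φ : Θ → ℝ} {M : ℝ} (hM : ∀ n, ∀ i ∈ D n, |Φn n i| ≤ M)
    (hlim : ∀ᵐ x ∂P, ∀ (n : ℕ → ℕ) (ω : ℕ → ι), Tendsto n atTop atTop → (∀ j, ω j ∈ D (n j)) →
      Tendsto (fun j => Y (n j) (ω j)) atTop (𝓝 (Z x)) →
      (∀ i, ∃ c, ∀ᶠ j in atTop, cond i c (n j) (ω j)) →
      Tendsto (fun j => Φn (n j) (ω j)) atTop (𝓝 (Φ x))) :
    AEStronglyMeasurable Φ P ∧ Tendsto (fun n => avg (D n) (Φn n)) atTop (𝓝 (∫ x, Φ x ∂P)) ∧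
      ∀ᵐ x ∂P, ∃ (n : ℕ → ℕ) (ω : ℕ → ι), Tendsto n atTop atTop ∧ (∀ j, ω j ∈ D (n j)) ∧
        Tendsto (fun j => Y (n j) (ω j)) atTop (𝓝 (Z x)) ∧
        ∀ i, ∃ c, ∀ᶠ j in atTop, cond i c (n j) (ω j) := by
  set M' := |M| + 1 with hM'
  have hM'pos : 0 < M' := by positivity
  have hM1 : ∀ n, ∀ i ∈ D n, |Φn n i| ≤ M' := fun n i hi =>
    (hM n i hi).trans ((le_abs_self M).trans (by linarith))
  have hM2 : ∀ n, ∀ i ∈ D n, |(fun n i => - Φn n i) n i| ≤ M' := fun n i hi => by
    simpa using hM1 n i hi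
  -- the good configurations
  have hp : ∀ k i : ℕ, (0 : ℝ) < (1 / 2) ^ (k + i + 1) := fun k i => by positivity
  choose c hc using fun k i => htight i _ (hp k i)
  choose N hN using fun k i => eventually_atTop.1 (hc k i)
  set D' : ℕ → ℕ → Finset ι := fun k n =>
    (D n).filter (fun ω => ∀ i ≤ n, N k i ≤ n → cond i (c k i) n ω) with hD'
  have hsub : ∀ k n, D' k n ⊆ D n := fun k n => Finset.filter_subset _ _
  have hcond : ∀ k (n : ℕ → ℕ) (ω : ℕ → ι), Tendsto n atTop atTop → (∀ j, ω j ∈ D' k (n j)) →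
      ∀ i, ∃ c, ∀ᶠ j in atTop, cond i c (n j) (ω j) := by
    intro k n ω hn hω i
    refine ⟨c k i, ?_⟩
    filter_upwards [hn.eventually_ge_atTop i, hn.eventually_ge_atTop (N k i)] with j h1 h2
    exact (Finset.mem_filter.1 (hω j)).2 i h1 h2
  have hbad : ∀ k n, avg (D n) (bad (D' k) n) ≤ (1 / 2) ^ k := by
    intro k n
    set s := (Finset.range (n + 1)).filter (fun i => N k i ≤ n) with hs
    have h1 : avg (D n) (bad (D' k) n) ≤
        avg (D n) (fun ω => ∑ i ∈ s, if cond i (c k i) n ω then (0 : ℝ) else 1) := by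
      refine avg_mono _ (fun ω hω => ?_)
      have hnn : ∀ i ∈ s, (0 : ℝ) ≤ if cond i (c k i) n ω then (0 : ℝ) else 1 := by
        intro i _
        split_ifs <;> norm_num
      by_cases h : ω ∈ D' k n
      · simp only [bad, h, if_true]
        exact Finset.sum_nonneg hnn
      · simp only [bad, h, if_false]
        have : ∃ i ≤ n, N k i ≤ n ∧ ¬ cond i (c k i) n ω := by
          by_contra hcon
          push Not at hcon
          exact h (Finset.mem_filter.2 ⟨hω, hcon⟩)
        obtain ⟨i, hi, hNi, hni⟩ := this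
        have hmem : i ∈ s := Finset.mem_filter.2 ⟨Finset.mem_range.2 (by omega), hNi⟩
        have := Finset.single_le_sum hnn hmem
        simpa [hni] using this
    refine h1.trans ?_
    rw [avg_sum]
    calc ∑ i ∈ s, avg (D n) (fun ω => if cond i (c k i) n ω then (0 : ℝ) else 1)
        ≤ ∑ i ∈ s, (1 / 2 : ℝ) ^ (k + i + 1) :=
          Finset.sum_le_sum (fun i hi => hN k i n (Finset.mem_filter.1 hi).2)
      _ ≤ ∑ i ∈ Finset.range (n + 1), (1 / 2 : ℝ) ^ (k + i + 1) :=
          Finset.sum_le_sum_of_subset_of_nonneg (Finset.filter_subset _ _)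
            (fun i _ _ => (hp k i).le)
      _ = (1 / 2) ^ k * ((1 / 2) * ∑ i ∈ Finset.range (n + 1), (1 / 2 : ℝ) ^ i) := by
          rw [Finset.mul_sum, Finset.mul_sum]
          refine Finset.sum_congr rfl (fun i _ => ?_)
          ring
      _ ≤ (1 / 2) ^ k * 1 := by
          refine mul_le_mul_of_nonneg_left ?_ (by positivity)
          have := summable_geometric_two.sum_le_tsum (Finset.range (n + 1))
            (fun i _ => by positivity)
          rw [tsum_geometric_two] at this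
          linarith
      _ = (1 / 2) ^ k := mul_one _
  have hlim1 : ∀ k, ∀ᵐ x ∂P, ∀ (n : ℕ → ℕ) (ω : ℕ → ι), Tendsto n atTop atTop →
      (∀ j, ω j ∈ D' k (n j)) → Tendsto (fun j => Y (n j) (ω j)) atTop (𝓝 (Z x)) →
      Tendsto (fun j => Φn (n j) (ω j)) atTop (𝓝 (Φ x)) := by
    intro k
    filter_upwards [hlim] with x hx n ω hn hω hY
    exact hx n ω hn (fun j => hsub k _ (hω j)) hY (hcond k n ω hn hω)
  have hlim2 : ∀ k, ∀ᵐ x ∂P, ∀ (n : ℕ → ℕ) (ω : ℕ → ι), Tendsto n atTop atTop →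
      (∀ j, ω j ∈ D' k (n j)) → Tendsto (fun j => Y (n j) (ω j)) atTop (𝓝 (Z x)) →
      Tendsto (fun j => (fun n i => -Φn n i) (n j) (ω j)) atTop (𝓝 (-Φ x)) := by
    intro k
    filter_upwards [hlim1 k] with x hx n ω hn hω hY
    exact (hx n ω hn hω hY).neg
  have A := fun k => pass_one P hM'pos hZ hLIM hM1 (hsub k) (hbad k) (hlim1 k)
  have B := fun k => pass_one (Φ := fun x => -Φ x) P hM'pos hZ hLIM hM2 (hsub k) (hbad k) (hlim2 k)
  set W : ℕ → Θ → ℝ := fun k x => if IsLim (D' k) Y (Z x) then Φ x else -M' with hW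
  set L : ℕ → Θ → ℝ := fun k x => if IsLim (D' k) Y (Z x) then -Φ x else -M' with hL
  have mW : ∀ k, AEStronglyMeasurable (W k) P := fun k => (A k).1
  have mL : ∀ k, AEStronglyMeasurable (L k) P := fun k => (B k).1
  have bW : ∀ k, ∀ᵐ x ∂P, ‖W k x‖ ≤ M' := fun k => (A k).2.1
  have bL : ∀ k, ∀ᵐ x ∂P, ‖L k x‖ ≤ M' := fun k => (B k).2.1
  have intW : ∀ k, Integrable (W k) P := fun k => Integrable.of_bound (mW k) M' (bW k)
  have intL : ∀ k, Integrable (L k) P := fun k => Integrable.of_bound (mL k) M' (bL k)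
  have up : ∀ k, ∀ ε > 0, ∀ᶠ n in atTop,
      avg (D n) (Φn n) < (∫ x, W k x ∂P) + 2 * M' * (1 / 2) ^ k + ε := fun k => (A k).2.2
  have low : ∀ k, ∀ ε > 0, ∀ᶠ n in atTop,
      - avg (D n) (Φn n) < (∫ x, L k x ∂P) + 2 * M' * (1 / 2) ^ k + ε := by
    intro k ε hε
    filter_upwards [(B k).2.2 ε hε] with n hn
    rwa [avg_neg] at hn
  -- most `x` are limits
  have hint : ∀ k, -(4 * M' * (1 / 2) ^ k) ≤ ∫ x, (W k x + L k x) ∂P := by
    intro k
    rw [integral_add (intW k) (intL k)]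
    by_contra hcon
    push Not at hcon
    set ε := (-(4 * M' * (1 / 2) ^ k) - ((∫ x, W k x ∂P) + ∫ x, L k x ∂P)) / 2 with hε
    obtain ⟨n, h1, h2⟩ := ((up k ε (by linarith)).and (low k ε (by linarith))).exists
    linarith
  have hsum : ∀ k x, W k x + L k x = -2 * M' * (if IsLim (D' k) Y (Z x) then (0 : ℝ) else 1) := by
    intro k x
    simp only [hW, hL]
    split_ifs <;> ring
  set g : ℕ → Θ → ℝ := fun k x => if IsLim (D' k) Y (Z x) then (0 : ℝ) else 1 with hg
  have hgW : ∀ k, g k = fun x => (W k x + L k x) * (-(1 / (2 * M'))) := by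
    intro k
    funext x
    rw [hsum]
    simp only [hg]
    field_simp
  have mg : ∀ k, AEStronglyMeasurable (g k) P := fun k => by
    rw [hgW]
    exact ((mW k).add (mL k)).mul_const _
  have g0 : ∀ k x, 0 ≤ g k x := fun k x => by
    simp only [hg]; split_ifs <;> norm_num
  have g1 : ∀ k x, ‖g k x‖ ≤ 1 := fun k x => by
    simp only [hg]; split_ifs <;> norm_num
  have ig : ∀ k, Integrable (g k) P := fun k =>
    Integrable.of_bound (mg k) 1 (Eventually.of_forall (g1 k))
  have Ig : ∀ k, ∫ x, g k x ∂P ≤ 2 * (1 / 2) ^ k := by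
    intro k
    have h1 := hint k
    have h2 : ∫ x, (W k x + L k x) ∂P = -2 * M' * ∫ x, g k x ∂P := by
      rw [← integral_const_mul]
      exact integral_congr_ae (Eventually.of_forall (fun x => hsum k x))
    rw [h2] at h1
    have h3 : M' * (∫ x, g k x ∂P) ≤ M' * (2 * (1 / 2) ^ k) := by linarith
    exact le_of_mul_le_mul_left h3 hM'pos
  -- Borel-Cantelli
  have hev : ∀ᵐ x ∂P, ∀ᶠ k in atTop, IsLim (D' k) Y (Z x) := by
    have h1 : ∀ k, P {x | ¬ IsLim (D' k) Y (Z x)} ≤ ENNReal.ofReal (2 * (1 / 2) ^ k) := by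
      intro k
      have h2 := mul_meas_ge_le_lintegral₀ (mg k).enorm 1
      have h3 : ∫⁻ x, ‖g k x‖ₑ ∂P = ENNReal.ofReal (∫ x, g k x ∂P) := by
        rw [ofReal_integral_eq_lintegral_ofReal (ig k) (Eventually.of_forall (g0 k))]
        refine lintegral_congr (fun x => ?_)
        rw [← ofReal_norm, Real.norm_of_nonneg (g0 k x)]
      rw [h3, one_mul] at h2
      have h4 : {x | ¬ IsLim (D' k) Y (Z x)} ⊆ {x | 1 ≤ ‖g k x‖ₑ} := by
        intro x hx
        have hx' : ¬ IsLim (D' k) Y (Z x) := hx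
        simp only [Set.mem_ofPred_eq, hg, hx', if_false]
        simp
      exact (measure_mono h4).trans (h2.trans (ENNReal.ofReal_le_ofReal (Ig k)))
    have h5 : ∑' k, P {x | ¬ IsLim (D' k) Y (Z x)} ≠ ⊤ := by
      refine ne_top_of_le_ne_top ?_ (ENNReal.tsum_le_tsum h1)
      exact (summable_geometric_two.mul_left 2).tsum_ofReal_ne_top
    have h6 := measure_setOfPred_frequently_eq_zero h5
    rw [ae_iff]
    refine le_antisymm ((measure_mono ?_).trans h6.le) zero_le
    intro x hx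
    have hx' : ¬ ∀ᶠ k in atTop, IsLim (D' k) Y (Z x) := hx
    rw [not_eventually] at hx'
    exact hx'
  -- convergence of the envelopes as `k → ∞`
  have cW : ∀ᵐ x ∂P, Tendsto (fun k => W k x) atTop (𝓝 (Φ x)) := by
    filter_upwards [hev] with x hx
    refine tendsto_const_nhds.congr' ?_
    filter_upwards [hx] with k hk
    simp only [hW, hk, if_true]
  have cL : ∀ᵐ x ∂P, Tendsto (fun k => L k x) atTop (𝓝 (-Φ x)) := by
    filter_upwards [hev] with x hx
    refine tendsto_const_nhds.congr' ?_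
    filter_upwards [hx] with k hk
    simp only [hL, hk, if_true]
  have mΦ : AEStronglyMeasurable Φ P := aestronglyMeasurable_of_tendsto_ae atTop mW cW
  have iW : Tendsto (fun k => ∫ x, W k x ∂P) atTop (𝓝 (∫ x, Φ x ∂P)) :=
    tendsto_integral_of_dominated_convergence (fun _ => M') mW (integrable_const _) bW cW
  have iL : Tendsto (fun k => ∫ x, L k x ∂P) atTop (𝓝 (∫ x, -Φ x ∂P)) :=
    tendsto_integral_of_dominated_convergence (fun _ => M') mL (integrable_const _) bL cL
  have hgeo : Tendsto (fun k : ℕ => 2 * M' * (1 / 2 : ℝ) ^ k) atTop (𝓝 0) := by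
    have := (tendsto_pow_atTop_nhds_zero_of_lt_one (by norm_num : (0 : ℝ) ≤ 1 / 2)
      (by norm_num : (1 / 2 : ℝ) < 1)).const_mul (2 * M')
    simpa using this
  refine ⟨mΦ, ?_, ?_⟩
  · rw [tendsto_order]
    constructor
    · intro a ha
      have h1 := iL.add hgeo
      rw [add_zero, integral_neg] at h1
      obtain ⟨k, hk⟩ := ((tendsto_order.1 h1).2
        (-(a + ((∫ x, Φ x ∂P) - a) / 2)) (by linarith)).exists
      filter_upwards [low k (((∫ x, Φ x ∂P) - a) / 2) (by linarith)] with n hn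
      linarith
    · intro a ha
      have h1 := iW.add hgeo
      rw [add_zero] at h1
      obtain ⟨k, hk⟩ := ((tendsto_order.1 h1).2
        (a - (a - (∫ x, Φ x ∂P)) / 2) (by linarith)).exists
      filter_upwards [up k ((a - (∫ x, Φ x ∂P)) / 2) (by linarith)] with n hn
      linarith
  · filter_upwards [hev] with x hx
    obtain ⟨k, n, ω, hn, hω, hY⟩ := hx.exists
    exact ⟨n, ω, hn, fun j => hsub k _ (hω j), hY, hcond k n ω hn hω⟩

end Vale.Agent.P155.TC
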