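import Vale.Agent.P155.TC657.Greedy

/-!
# P155, tightness criterion: reparametrisation of a loop with a uniform modulus of continuity
-/

namespace Vale.Agent.P155.TC

open Set Filter Topology

variable {E : Type*} [PseudoMetricSpace E]

/-- The weights. -/
noncomputable def wt (j : ℕ) : ℝ := (1 / 2) ^ (j + 2)

theorem wt_pos (j : ℕ) : 0 < wt j := by unfold wt; positivity

theorem wt_summable : Summable wt := by
  have := (summable_geometric_two).mul_right ((1 / 2 : ℝ) ^ 2)
  refine this.congr (fun j => ?_)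
  simp [wt, pow_add]

theorem wt_tsum : ∑' j, wt j = 1 / 2 := by
  have : ∀ j, wt j = (1 / 2 : ℝ) ^ j * (1 / 2 : ℝ) ^ 2 := fun j => by simp [wt, pow_add]
  rw [tsum_congr this, tsum_mul_right, tsum_geometric_two]
  norm_num

/-- The time change of `[0,1]`. -/
noncomputable def tg (γ : ℝ → E) (ε : ℕ → ℝ) (N : ℕ → ℕ) (x : ℝ) : ℝ :=
  x / 2 + ∑' j, wt j * tc γ (ε j) (N j) x

section tg

variable (γ : ℝ → E) (ε : ℕ → ℝ) (N : ℕ → ℕ)

theorem tg_bound (j : ℕ) (x : ℝ) : ‖wt j * tc γ (ε j) (N j) x‖ ≤ wt j := by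
  rw [Real.norm_eq_abs, abs_of_nonneg (mul_nonneg (wt_pos j).le (tc_nonneg _ _ _ _))]
  exact mul_le_of_le_one_right (wt_pos j).le (tc_le_one _ _ _ _)

theorem tg_summable (x : ℝ) : Summable (fun j => wt j * tc γ (ε j) (N j) x) :=
  Summable.of_norm_bounded wt_summable (fun j => tg_bound γ ε N j x)

theorem tg_cont : Continuous (tg γ ε N) := by
  unfold tg
  exact (continuous_id.div_const _).add (continuous_tsum
    (fun j => continuous_const.mul (tc_cont _ _ _)) wt_summable (fun j x => tg_bound γ ε N j x))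

theorem tg_zero : tg γ ε N 0 = 0 := by
  unfold tg
  simp [tc_zero]

theorem tg_one : tg γ ε N 1 = 1 := by
  unfold tg
  simp only [tc_one, mul_one, wt_tsum]
  norm_num

theorem tg_strictMono : StrictMono (tg γ ε N) := by
  intro x y h
  unfold tg
  have : ∑' j, wt j * tc γ (ε j) (N j) x ≤ ∑' j, wt j * tc γ (ε j) (N j) y :=
    (tg_summable γ ε N x).tsum_le_tsum
      (fun j => mul_le_mul_of_nonneg_left (tc_mono _ _ _ h.le) (wt_pos j).le) (tg_summable γ ε N y)
  linarith

theorem tg_incr (j : ℕ) {x y : ℝ} (h : x ≤ y) :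
    wt j * (tc γ (ε j) (N j) y - tc γ (ε j) (N j) x) ≤ tg γ ε N y - tg γ ε N x := by
  have e : tg γ ε N y - tg γ ε N x = (y - x) / 2 +
      ∑' j, (wt j * tc γ (ε j) (N j) y - wt j * tc γ (ε j) (N j) x) := by
    rw [(tg_summable γ ε N y).tsum_sub (tg_summable γ ε N x)]
    unfold tg
    ring
  rw [e, mul_sub]
  have h1 := ((tg_summable γ ε N y).sub (tg_summable γ ε N x)).le_tsum j
    (fun i _ => sub_nonneg.2 (mul_le_mul_of_nonneg_left (tc_mono _ _ _ h) (wt_pos i).le))
  linarith

end tg

/-- The periodic extension of a function `g` on `[0,1]` with `g 0 = 0`, `g 1 = 1`. -/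
noncomputable def per (g : ℝ → ℝ) (x : ℝ) : ℝ := ⌊x⌋ + g (Int.fract x)

section per

variable {g : ℝ → ℝ} (h0 : g 0 = 0) (h1 : g 1 = 1) (hm : StrictMono g) (hc : Continuous g)

include h0 h1 hc in
theorem per_cont : Continuous (per g) := by
  have e : per g = fun x => x + (fun t => g t - t) (Int.fract x) := by
    funext x
    simp only [per]
    have := Int.floor_add_fract x
    linarith
  rw [e]
  exact continuous_id.add (ContinuousOn.comp_fract'' ((hc.sub continuous_id).continuousOn)
    (by simp [h0, h1]))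

theorem per_add_one (g : ℝ → ℝ) (x : ℝ) : per g (x + 1) = per g x + 1 := by
  unfold per
  rw [Int.floor_add_one, Int.fract_add_one]
  push_cast
  ring

include h0 h1 hm in
theorem per_mem (x : ℝ) : (⌊x⌋ : ℝ) ≤ per g x ∧ per g x < ⌊x⌋ + 1 := by
  unfold per
  constructor
  · have := hm.monotone (Int.fract_nonneg x)
    rw [h0] at this
    linarith
  · have := hm (Int.fract_lt_one x)
    rw [h1] at this
    linarith

include h0 h1 hm in
theorem per_strictMono : StrictMono (per g) := by
  intro x y h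
  rcases (Int.floor_mono h.le).eq_or_lt with e | e
  · unfold per
    rw [← e]
    have : Int.fract x < Int.fract y := by
      unfold Int.fract
      rw [← e]
      linarith
    linarith [hm this]
  · have a := (per_mem h0 h1 hm x).2
    have b := (per_mem h0 h1 hm y).1
    have c : (⌊x⌋ : ℝ) + 1 ≤ ⌊y⌋ := by exact_mod_cast e
    linarith

include h0 h1 hm hc in
theorem per_surj : Function.Surjective (per g) := by
  intro y
  have hcont := per_cont h0 h1 hc
  have a := per_mem h0 h1 hm (y - 1)
  have b := per_mem h0 h1 hm (y + 1)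
  have hy := Int.floor_le (y - 1)
  have hy' := Int.lt_floor_add_one (y + 1)
  have : y ∈ Icc (per g (y - 1)) (per g (y + 1)) := ⟨by linarith [a.2], by linarith [b.1]⟩
  obtain ⟨x, _, hx⟩ := intermediate_value_Icc (by linarith) hcont.continuousOn this
  exact ⟨x, hx⟩

theorem per_int (g : ℝ → ℝ) (h0 : g 0 = 0) (k : ℤ) : per g k = k := by
  unfold per
  rw [Int.floor_intCast, Int.fract_intCast, h0, add_zero]

/-- The homeomorphism of the line. -/
noncomputable def perHomeo (h0 : g 0 = 0) (h1 : g 1 = 1) (hm : StrictMono g)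
    (hc : Continuous g) : ℝ ≃ₜ ℝ :=
  (StrictMono.orderIsoOfSurjective (per g) (per_strictMono h0 h1 hm)
    (per_surj h0 h1 hm hc)).toHomeomorph

theorem perHomeo_apply (h0 : g 0 = 0) (h1 : g 1 = 1) (hm : StrictMono g)
    (hc : Continuous g) (x : ℝ) : perHomeo h0 h1 hm hc x = per g x := rfl

end per

omit [PseudoMetricSpace E] in
theorem periodic_fract {γ : ℝ → E} (hp : Function.Periodic γ 1) (x : ℝ) :
    γ (Int.fract x) = γ x := by
  have := hp.sub_int_mul_eq ⌊x⌋ (x := x)
  rw [mul_one] at this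
  exact this

/-- **Reparametrisation.** A loop with at most `N j` steps of size `ε j`, for every `j`, has a
reparametrisation with a modulus of continuity which depends only on `N` and `ε`. -/
theorem exists_reparam {γ : ℝ → E} (hγ : Continuous γ) (hp : Function.Periodic γ 1) {ε : ℕ → ℝ}
    (hε : ∀ j, 0 ≤ ε j) {N : ℕ → ℕ} (hN : ∀ j m, Steps γ (ε j) m → m ≤ N j) :
    ∃ F : ℝ ≃ₜ ℝ, StrictMono F ∧ (∀ x, F (x + 1) = F x + 1) ∧
      ∀ j x y, |x - y| < wt j / (N j + 1) → dist (γ (F x)) (γ (F y)) ≤ 6 * ε j := by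
  set g := tg γ ε N with hg
  have h0 : g 0 = 0 := tg_zero γ ε N
  have h1 : g 1 = 1 := tg_one γ ε N
  have hm : StrictMono g := tg_strictMono γ ε N
  have hc : Continuous g := tg_cont γ ε N
  set G := perHomeo h0 h1 hm hc with hG
  have hGa : ∀ x, G x = per g x := fun x => rfl
  have hGm : StrictMono G := per_strictMono h0 h1 hm
  -- the unit interval estimate
  have key : ∀ j, ∀ u v : ℝ, u ∈ Icc (0 : ℝ) 1 → v ∈ Icc (0 : ℝ) 1 → u ≤ v →
      g v - g u < wt j / (N j + 1) → dist (γ u) (γ v) ≤ 3 * ε j := by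
    intro j u v hu hv huv h
    refine dist_le_of_tc hγ (hε j) (hN j) hu hv huv ?_
    have h2 := (tg_incr γ ε N j huv).trans_lt h
    rw [lt_div_iff₀ (by positivity)] at h2
    have h3 : wt j * ((tc γ (ε j) (N j) v - tc γ (ε j) (N j) u) * (N j + 1)) < wt j * 1 := by
      calc _ = wt j * (tc γ (ε j) (N j) v - tc γ (ε j) (N j) u) * (N j + 1) := by ring
        _ < wt j := h2
        _ = wt j * 1 := (mul_one _).symm
    exact lt_of_mul_lt_mul_left h3 (wt_pos j).le
  have key2 : ∀ j, ∀ u v : ℝ, u ≤ v → per g v - per g u < wt j / (N j + 1) →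
      dist (γ u) (γ v) ≤ 6 * ε j := by
    intro j u v huv h
    have hlt1 : wt j / (N j + 1) < 1 := by
      rw [div_lt_one (by positivity)]
      have : wt j < 1 := by
        unfold wt
        exact pow_lt_one₀ (by norm_num) (by norm_num) (by omega)
      have : (0 : ℝ) ≤ N j := Nat.cast_nonneg _
      linarith
    have mu := per_mem h0 h1 hm u
    have mv := per_mem h0 h1 hm v
    have fu : Int.fract u ∈ Icc (0 : ℝ) 1 := ⟨Int.fract_nonneg _, (Int.fract_lt_one _).le⟩
    have fv : Int.fract v ∈ Icc (0 : ℝ) 1 := ⟨Int.fract_nonneg _, (Int.fract_lt_one _).le⟩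
    rcases (Int.floor_mono huv).eq_or_lt with e | e
    · have h2 : g (Int.fract v) - g (Int.fract u) < wt j / (N j + 1) := by
        unfold per at h
        rw [← e] at h
        linarith
      have h3 : Int.fract u ≤ Int.fract v := by
        unfold Int.fract
        rw [← e]
        linarith
      have := key j _ _ fu fv h3 h2
      rw [periodic_fract hp, periodic_fract hp] at this
      linarith [hε j]
    · have e1 : (⌊u⌋ : ℝ) + 1 ≤ ⌊v⌋ := by exact_mod_cast e
      have e2 : (⌊v⌋ : ℝ) < ⌊u⌋ + 2 := by linarith [mu.2, mv.1]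
      have e3 : ⌊v⌋ = ⌊u⌋ + 1 := by
        have : ⌊v⌋ < ⌊u⌋ + 2 := by exact_mod_cast e2
        omega
      have e4 : (⌊v⌋ : ℝ) = ⌊u⌋ + 1 := by exact_mod_cast e3
      unfold per at h
      have gu : g (Int.fract u) ≤ 1 := by rw [← h1]; exact hm.monotone fu.2
      have gv : 0 ≤ g (Int.fract v) := by rw [← h0]; exact hm.monotone fv.1
      have d1 := key j (Int.fract u) 1 fu ⟨zero_le_one, le_rfl⟩ fu.2 (by rw [h1]; linarith)
      have d2 := key j 0 (Int.fract v) ⟨le_rfl, zero_le_one⟩ fv fv.1 (by rw [h0]; linarith)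
      rw [periodic_fract hp] at d1 d2
      have e5 : γ 1 = γ 0 := by simpa using hp 0
      rw [e5] at d1
      linarith [dist_triangle (γ u) (γ 0) (γ v)]
  refine ⟨G.symm, ?_, ?_, ?_⟩
  · intro x y h
    by_contra hc'
    have := hGm.monotone (not_lt.1 hc')
    rw [G.apply_symm_apply, G.apply_symm_apply] at this
    linarith
  · intro x
    rw [Homeomorph.symm_apply_eq, hGa, per_add_one, ← hGa, G.apply_symm_apply]
  · have main : ∀ j x y, x ≤ y → y - x < wt j / (N j + 1) →
        dist (γ (G.symm x)) (γ (G.symm y)) ≤ 6 * ε j := by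
      intro j x y hxy h
      apply key2 j
      · by_contra hc'
        have := hGm (not_le.1 hc')
        rw [G.apply_symm_apply, G.apply_symm_apply] at this
        linarith
      · rw [← hGa, ← hGa, G.apply_symm_apply, G.apply_symm_apply]
        exact h
    intro j x y h
    rcases le_total x y with hxy | hxy
    · exact main j x y hxy (by rwa [abs_sub_comm, abs_of_nonneg (sub_nonneg.2 hxy)] at h)
    · rw [dist_comm]
      exact main j y x hxy (by rwa [abs_of_nonneg (sub_nonneg.2 hxy)] at h)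

end Vale.Agent.P155.TC
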